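import Mathlib.Algebra.Polynomial.Roots
import Mathlib.Algebra.Polynomial.Eval.Degree
import Mathlib.Data.Fin.Tuple.Sort
import Vale.Agent.P181.R2.H780.Chain

set_option autoImplicit false

/-! One-parameter families of split forms: the relations they give for a multilinear form that
vanishes on the diagonal at products of linear forms. -/

open Finset

namespace Vale.Agent.P181.H177.Cv

section Table

variable {S : Type*} [CommSemiring S]

/-- The coefficient table of the product of the factors `x + t ^ e.1 * z + t ^ e.2 * y`. -/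
def tb (t : S) : List (ℕ × ℕ) → ℕ → ℕ → S
  | [], g, b => if g = 0 ∧ b = 0 then 1 else 0
  | e :: E, g, b => tb t E g b + (if g = 0 then 0 else t ^ e.1 * tb t E (g - 1) b) +
      (if b = 0 then 0 else t ^ e.2 * tb t E g (b - 1))

theorem tb_map {T : Type*} [CommSemiring T] (f : S →+* T) (t : S) (E : List (ℕ × ℕ))
    (g b : ℕ) : f (tb t E g b) = tb (f t) E g b := by
  induction E generalizing g b with
  | nil =>
    simp only [tb]
    split_ifs
    · exact map_one f
    · exact map_zero f
  | cons e E ih =>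
    simp only [tb, map_add, ih]
    congr 1
    · congr 1
      split_ifs
      · exact map_zero f
      · rw [map_mul, map_pow, ih]
    · split_ifs
      · exact map_zero f
      · rw [map_mul, map_pow, ih]

theorem tb_eq_zero (t : S) (E : List (ℕ × ℕ)) (g b : ℕ) (h : E.length < g + b) :
    tb t E g b = 0 := by
  induction E generalizing g b with
  | nil =>
    rw [List.length_nil] at h
    have h1 : ¬ (g = 0 ∧ b = 0) := by omega
    simp only [tb, if_neg h1]
  | cons e E ih =>
    rw [List.length_cons] at h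
    simp only [tb]
    rw [ih g b (by omega), zero_add]
    have h1 : (if g = 0 then (0 : S) else t ^ e.1 * tb t E (g - 1) b) = 0 := by
      split_ifs with hg
      · rfl
      · rw [ih (g - 1) b (by omega), mul_zero]
    have h2 : (if b = 0 then (0 : S) else t ^ e.2 * tb t E g (b - 1)) = 0 := by
      split_ifs with hb
      · rfl
      · rw [ih g (b - 1) (by omega), mul_zero]
    rw [h1, h2, add_zero]

/-- The monomials. -/
def mo (x z y : S) (N : ℕ) (p : ℕ × ℕ) : S := x ^ (N - p.1 - p.2) * z ^ p.1 * y ^ p.2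

theorem expand (t x z y : S) (E : List (ℕ × ℕ)) :
    (E.map (fun e => x + t ^ e.1 * z + t ^ e.2 * y)).prod =
      ∑ g ∈ range (E.length + 1), ∑ b ∈ range (E.length + 1),
        tb t E g b * mo x z y E.length (g, b) := by
  induction E with
  | nil => simp [tb, mo]
  | cons e E ih =>
    rw [List.map_cons, List.prod_cons, ih, List.length_cons]
    set N := E.length with hN
    have hS1 : ∑ g ∈ range (N + 1 + 1), ∑ b ∈ range (N + 1 + 1),
        tb t E g b * mo x z y (N + 1) (g, b) =
        ∑ g ∈ range (N + 1), ∑ b ∈ range (N + 1), x * (tb t E g b * mo x z y N (g, b)) := by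
      rw [Finset.sum_range_succ _ (N + 1)]
      rw [Finset.sum_eq_zero (s := range (N + 1 + 1)) (f := fun b =>
        tb t E (N + 1) b * mo x z y (N + 1) (N + 1, b)) (fun b _ => by
          rw [tb_eq_zero _ _ _ _ (by omega), zero_mul]), add_zero]
      refine Finset.sum_congr rfl fun g _ => ?_
      rw [Finset.sum_range_succ, tb_eq_zero _ _ _ _ (by omega), zero_mul, add_zero]
      refine Finset.sum_congr rfl fun b _ => ?_
      by_cases h : g + b ≤ N
      · have h1 : N + 1 - g - b = (N - g - b) + 1 := by omega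
        simp only [mo, h1, pow_succ]
        ring
      · rw [tb_eq_zero _ _ _ _ (by omega), zero_mul, zero_mul, mul_zero]
    have hS2 : ∑ g ∈ range (N + 1 + 1), ∑ b ∈ range (N + 1 + 1),
        (if g = 0 then 0 else t ^ e.1 * tb t E (g - 1) b) * mo x z y (N + 1) (g, b) =
        ∑ g ∈ range (N + 1), ∑ b ∈ range (N + 1),
          (t ^ e.1 * z) * (tb t E g b * mo x z y N (g, b)) := by
      rw [Finset.sum_range_succ']
      rw [Finset.sum_eq_zero (s := range (N + 1 + 1)) (f := fun b =>
        (if 0 = 0 then 0 else t ^ e.1 * tb t E (0 - 1) b) * mo x z y (N + 1) (0, b))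
        (fun b _ => by rw [if_pos rfl, zero_mul]), add_zero]
      refine Finset.sum_congr rfl fun g _ => ?_
      rw [Finset.sum_range_succ, Nat.add_sub_cancel, tb_eq_zero _ _ g (N + 1) (by omega),
        mul_zero, if_neg (Nat.succ_ne_zero g), zero_mul, add_zero]
      refine Finset.sum_congr rfl fun b _ => ?_
      have h1 : N + 1 - (g + 1) - b = N - g - b := by omega
      rw [if_neg (Nat.succ_ne_zero g)]
      simp only [mo, h1, pow_succ]
      ring
    have hS3 : ∑ g ∈ range (N + 1 + 1), ∑ b ∈ range (N + 1 + 1),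
        (if b = 0 then 0 else t ^ e.2 * tb t E g (b - 1)) * mo x z y (N + 1) (g, b) =
        ∑ g ∈ range (N + 1), ∑ b ∈ range (N + 1),
          (t ^ e.2 * y) * (tb t E g b * mo x z y N (g, b)) := by
      rw [Finset.sum_range_succ _ (N + 1)]
      rw [Finset.sum_eq_zero (s := range (N + 1 + 1)) (f := fun b =>
        (if b = 0 then 0 else t ^ e.2 * tb t E (N + 1) (b - 1)) *
          mo x z y (N + 1) (N + 1, b)) (fun b _ => by
          split_ifs with hb
          · rw [zero_mul]
          · rw [tb_eq_zero _ _ _ _ (by omega), mul_zero, zero_mul]), add_zero]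
      refine Finset.sum_congr rfl fun g _ => ?_
      rw [Finset.sum_range_succ', if_pos rfl, zero_mul, add_zero]
      refine Finset.sum_congr rfl fun b _ => ?_
      rw [if_neg (Nat.succ_ne_zero b), Nat.add_sub_cancel]
      have h1 : N + 1 - g - (b + 1) = N - g - b := by omega
      simp only [mo, h1, pow_succ]
      ring
    have hS : ∑ g ∈ range (N + 1 + 1), ∑ b ∈ range (N + 1 + 1),
        tb t (e :: E) g b * mo x z y (N + 1) (g, b) =
        (∑ g ∈ range (N + 1 + 1), ∑ b ∈ range (N + 1 + 1),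
          tb t E g b * mo x z y (N + 1) (g, b)) +
        (∑ g ∈ range (N + 1 + 1), ∑ b ∈ range (N + 1 + 1),
        (if g = 0 then 0 else t ^ e.1 * tb t E (g - 1) b) * mo x z y (N + 1) (g, b)) +
        ∑ g ∈ range (N + 1 + 1), ∑ b ∈ range (N + 1 + 1),
        (if b = 0 then 0 else t ^ e.2 * tb t E g (b - 1)) * mo x z y (N + 1) (g, b) := by
      rw [← Finset.sum_add_distrib, ← Finset.sum_add_distrib]
      refine Finset.sum_congr rfl fun g _ => ?_
      rw [← Finset.sum_add_distrib, ← Finset.sum_add_distrib]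
      refine Finset.sum_congr rfl fun b _ => ?_
      simp only [tb]
      ring
    rw [hS, hS1, hS2, hS3, add_mul, add_mul, Finset.mul_sum, Finset.mul_sum, Finset.mul_sum]
    congr 1
    · congr 1
      · exact Finset.sum_congr rfl fun g _ => Finset.mul_sum _ _ _
      · exact Finset.sum_congr rfl fun g _ => Finset.mul_sum _ _ _
    · exact Finset.sum_congr rfl fun g _ => Finset.mul_sum _ _ _

end Table

theorem ext_pow {ι : Type*} (s : Finset ι) (e : ι → ℕ) (c : ι → ℂ)
    (h : ∀ u : ℂ, ∑ i ∈ s, u ^ e i * c i = 0) (k : ℕ) :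
    ∑ i ∈ s with e i = k, c i = 0 := by
  have h1 : (∑ i ∈ s, Polynomial.monomial (e i) (c i) : Polynomial ℂ) = 0 := by
    apply Polynomial.funext
    intro u
    rw [Polynomial.eval_finsetSum, Polynomial.eval_zero, ← h u]
    refine Finset.sum_congr rfl fun i _ => ?_
    rw [Polynomial.eval_monomial, mul_comm]
  have h2 := congrArg (fun p => Polynomial.coeff p k) h1
  simp only [Polynomial.finsetSum_coeff, Polynomial.coeff_monomial, Polynomial.coeff_zero] at h2
  rw [Finset.sum_filter]
  exact h2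

theorem ext_poly {ι : Type*} (s : Finset ι) (f : ι → Polynomial ℕ) (c : ι → ℂ)
    (h : ∀ τ : ℂ, ∑ i ∈ s, (f i).eval₂ (Nat.castRingHom ℂ) τ * c i = 0) (k : ℕ) :
    ∑ i ∈ s, ((f i).coeff k : ℂ) * c i = 0 := by
  have h1 : (∑ i ∈ s, (f i).map (Nat.castRingHom ℂ) * Polynomial.C (c i) : Polynomial ℂ) = 0 := by
    apply Polynomial.funext
    intro u
    rw [Polynomial.eval_finsetSum, Polynomial.eval_zero, ← h u]
    refine Finset.sum_congr rfl fun i _ => ?_
    rw [Polynomial.eval_mul, Polynomial.eval_C, Polynomial.eval_map]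
  have h2 := congrArg (fun p => Polynomial.coeff p k) h1
  simp only [Polynomial.finsetSum_coeff, Polynomial.coeff_mul_C, Polynomial.coeff_map,
    Polynomial.coeff_zero] at h2
  exact h2

variable {A : Type*} [CommRing A] [Algebra ℂ A]

/-- The polynomial attached to a tuple of places. -/
noncomputable def fn {a : ℕ} (E : List (ℕ × ℕ)) (n : Fin a → ℕ × ℕ) : Polynomial ℕ :=
  ∏ r, tb Polynomial.X E (n r).1 (n r).2

/-- All tuples of places. -/
def allN (a N : ℕ) : Finset (Fin a → ℕ × ℕ) :=
  Fintype.piFinset (fun _ => range (N + 1) ×ˢ range (N + 1))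

/-- Tuples of given weight. -/
def tupN (a N Z Y : ℕ) : Finset (Fin a → ℕ × ℕ) :=
  ((allN a N).filter (fun n => ∑ r, (n r).1 = Z)).filter (fun n => ∑ r, (n r).2 = Y)

theorem rel0 {L : Submodule ℂ A} {a : ℕ} (E : List (ℕ × ℕ))
    (G : MultilinearMap ℂ (fun _ : Fin a => A) ℂ) (hK : IsK L E.length G) {x z y : A}
    (hx : x ∈ L) (hz : z ∈ L) (hy : y ∈ L) (u v τ : ℂ) :
    ∑ n ∈ allN a E.length, u ^ (∑ r, (n r).1) * (v ^ (∑ r, (n r).2) *
      ((fn E n).eval₂ (Nat.castRingHom ℂ) τ * G (fun r => mo x z y E.length (n r)))) = 0 := by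
  set N := E.length with hN
  have h1 := hK (E.map (fun e => x + (algebraMap ℂ A τ) ^ e.1 * (algebraMap ℂ A u * z) +
      (algebraMap ℂ A τ) ^ e.2 * (algebraMap ℂ A v * y)) : Multiset A)
    (by rw [Multiset.coe_card, List.length_map]) (by
      intro q hq
      rw [Multiset.mem_coe, List.mem_map] at hq
      obtain ⟨e, -, rfl⟩ := hq
      rw [← map_pow, ← map_pow, ← Algebra.smul_def, ← Algebra.smul_def, ← Algebra.smul_def,
        ← Algebra.smul_def]
      exact L.add_mem (L.add_mem hx (L.smul_mem _ (L.smul_mem _ hz)))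
        (L.smul_mem _ (L.smul_mem _ hy)))
  rw [Multiset.prod_coe, expand, ← Finset.sum_product', ← hN] at h1
  have h2 : (fun _ : Fin a => ∑ p ∈ range (N + 1) ×ˢ range (N + 1),
      tb (algebraMap ℂ A τ) E p.1 p.2 *
        mo x (algebraMap ℂ A u * z) (algebraMap ℂ A v * y) N (p.1, p.2)) =
      fun _ : Fin a => ∑ p ∈ range (N + 1) ×ˢ range (N + 1),
        (u ^ p.1 * (v ^ p.2 * tb τ E p.1 p.2)) • mo x z y N p := by
    funext _
    refine Finset.sum_congr rfl fun p _ => ?_
    rw [← tb_map (algebraMap ℂ A), Algebra.smul_def]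
    simp only [mo, map_mul, map_pow, mul_pow]
    ring
  rw [h2, MultilinearMap.map_sum_finset] at h1
  rw [← h1]
  refine Finset.sum_congr rfl fun n _ => ?_
  rw [MultilinearMap.map_smul_univ, smul_eq_mul, Finset.prod_mul_distrib,
    Finset.prod_mul_distrib, Finset.prod_pow_eq_pow_sum, Finset.prod_pow_eq_pow_sum]
  have h3 : (fn E n).eval₂ (Nat.castRingHom ℂ) τ = ∏ r, tb τ E (n r).1 (n r).2 := by
    rw [fn]
    change Polynomial.eval₂RingHom (Nat.castRingHom ℂ) τ _ = _
    rw [map_prod]
    refine Finset.prod_congr rfl fun r _ => ?_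
    rw [tb_map]
    congr 1
    exact Polynomial.eval₂_X _ _
  rw [h3]
  ring

/-- The relation of a given weight, at every value of the parameter. -/
theorem rel1 {L : Submodule ℂ A} {a : ℕ} (E : List (ℕ × ℕ))
    (G : MultilinearMap ℂ (fun _ : Fin a => A) ℂ) (hK : IsK L E.length G) {x z y : A}
    (hx : x ∈ L) (hz : z ∈ L) (hy : y ∈ L) (Z Y : ℕ) (τ : ℂ) :
    ∑ n ∈ tupN a E.length Z Y,
      ((fn E n).eval₂ (Nat.castRingHom ℂ) τ * G (fun r => mo x z y E.length (n r))) = 0 := by
  refine ext_pow _ (fun n : Fin a → ℕ × ℕ => ∑ r, (n r).2) _ (fun v => ?_) Y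
  refine ext_pow _ (fun n : Fin a → ℕ × ℕ => ∑ r, (n r).1) _ (fun u => ?_) Z
  exact rel0 E G hK hx hz hy u v τ

/-- The relation of a given weight, paired with a polynomial. -/
theorem rel2 {L : Submodule ℂ A} {a : ℕ} (E : List (ℕ × ℕ))
    (G : MultilinearMap ℂ (fun _ : Fin a => A) ℂ) (hK : IsK L E.length G) {x z y : A}
    (hx : x ∈ L) (hz : z ∈ L) (hy : y ∈ L) (Z Y : ℕ) (Q : Polynomial ℕ) (R : ℕ) :
    ∑ n ∈ tupN a E.length Z Y,
      (((Q * fn E n).coeff R : ℕ) : ℂ) * G (fun r => mo x z y E.length (n r)) = 0 := by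
  have h1 : ∀ n : Fin a → ℕ × ℕ,
      (((Q * fn E n).coeff R : ℕ) : ℂ) * G (fun r => mo x z y E.length (n r)) =
      ∑ p ∈ antidiagonal R, (Q.coeff p.1 : ℂ) * (((fn E n).coeff p.2 : ℂ) *
        G (fun r => mo x z y E.length (n r))) := by
    intro n
    rw [Polynomial.coeff_mul, Nat.cast_sum, Finset.sum_mul]
    refine Finset.sum_congr rfl fun p _ => ?_
    rw [Nat.cast_mul]
    ring
  rw [Finset.sum_congr rfl (fun n _ => h1 n), Finset.sum_comm]
  refine Finset.sum_eq_zero fun p _ => ?_
  rw [← Finset.mul_sum, ext_poly _ _ _ (rel1 E G hK hx hz hy Z Y), mul_zero]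

/-- The relation at the parameter one. -/
theorem rel3 {L : Submodule ℂ A} {a : ℕ} (E : List (ℕ × ℕ))
    (G : MultilinearMap ℂ (fun _ : Fin a => A) ℂ) (hK : IsK L E.length G) {x z y : A}
    (hx : x ∈ L) (hz : z ∈ L) (hy : y ∈ L) (Z Y : ℕ) :
    ∑ n ∈ tupN a E.length Z Y,
      (((fn E n).eval 1 : ℕ) : ℂ) * G (fun r => mo x z y E.length (n r)) = 0 := by
  rw [← rel1 E G hK hx hz hy Z Y 1]
  refine Finset.sum_congr rfl fun n _ => ?_
  congr 1
  have h1 := Polynomial.hom_eval₂ (fn E n) (RingHom.id ℕ) (Nat.castRingHom ℂ) 1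
  rw [map_one, RingHom.comp_id] at h1
  rw [← h1]
  rfl

end Vale.Agent.P181.H177.Cv
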