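import Vale.Agent.P181.H177.CurveAD

set_option autoImplicit false

/-! Kernel run of the one-curve certificate for 5 points. -/

namespace Vale.Agent.P181.H177.Cv

theorem run5 : chk 80 88 91 (Nat.pow 2 40) (tn (Nat.pow 2 80) E5) (tn 1 E5) 5 cs5 5 8 C5 1
    (some [(5, 0), (0, 2), (0, 2), (0, 2), (0, 2)]) = true := by
  decide +kernel

theorem dig5 : digB 80 41 11 C5 = true := by
  decide +kernel

theorem top5 : Nat.blt C5 (Nat.pow 2 (Nat.mul 80 1169)) = true := by
  decide +kernel

end Vale.Agent.P181.H177.Cv
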