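import Vale.Agent.P181.H177.CurveBD

set_option autoImplicit false

/-! Kernel run of the one-curve certificate for 6 points. -/

namespace Vale.Agent.P181.H177.Cv

theorem run6 : chk 196 233 505 (Nat.pow 2 140) (tn (Nat.pow 2 196) E6) (tn 1 E6) 6 cs6 6 10 C6 1
    (some [(6, 0), (0, 2), (0, 2), (0, 2), (0, 2), (0, 2)]) = true := by
  decide +kernel

theorem dig6 : digB 196 141 13 C6 = true := by
  decide +kernel

theorem top6 : Nat.blt C6 (Nat.pow 2 (Nat.mul 196 6449)) = true := by
  decide +kernel

end Vale.Agent.P181.H177.Cv
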