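import Vale.Agent.P181.H177.CurveF
import Vale.Agent.P181.H177.CurveAK
import Vale.Agent.P181.H177.CurveBK

set_option autoImplicit false

/-! The base statements `(3, 2)` for five slots and `(4, 2)` for six slots. -/

namespace Vale.Agent.P181.H177.Cv

variable {A : Type*} [CommRing A] [Algebra ℂ A]

/-- The order of the places. -/
def cdN (N : ℕ) (p : ℕ × ℕ) : ℕ := (N - p.1) * (N + 1) + (N - p.2)

theorem mem_cs5 (g b : ℕ) (h : g + b ≤ E5.length) : (g, b) ∈ cs5 := by
  have h0 : g + b ≤ 5 := h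
  have h1 : g ≤ 5 := by omega
  have h2 : b ≤ 5 := by omega
  clear h
  interval_cases g <;> interval_cases b <;> first | omega | decide

theorem mem_cs6 (g b : ℕ) (h : g + b ≤ E6.length) : (g, b) ∈ cs6 := by
  have h0 : g + b ≤ 6 := h
  have h1 : g ≤ 6 := by omega
  have h2 : b ≤ 6 := by omega
  clear h
  interval_cases g <;> interval_cases b <;> first | omega | decide

/-- **Certificate (a).** -/
theorem baseAt_a (L : Submodule ℂ A) :
    ∀ x ∈ L, ∀ y ∈ L, H780.BaseAt L 4 5 (x ^ 3 * y ^ 2) :=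
  baseAt_of_run 80 88 91 (Nat.pow 2 40) 41 11 30 4 2 E5 C5 cs5 (cdN 5) (by decide)
    (by decide) (by decide) (by decide) mem_cs5 (by decide +kernel) (by decide) (by decide)
    run5 dig5 1169 (by decide) top5 (by decide +kernel)

/-- **Certificate (b).** -/
theorem baseAt_b (L : Submodule ℂ A) :
    ∀ x ∈ L, ∀ y ∈ L, H780.BaseAt L 5 6 (x ^ 4 * y ^ 2) :=
  baseAt_of_run 196 233 505 (Nat.pow 2 140) 141 13 90 5 2 E6 C6 cs6 (cdN 6) (by decide)
    (by decide) (by decide) (by decide) mem_cs6 (by decide +kernel) (by decide) (by decide)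
    run6 dig6 6449 (by decide) top6 (by decide +kernel)

end Vale.Agent.P181.H177.Cv
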