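import Vale.Agent.P181.H177.CurveS

set_option autoImplicit false

/-! The base statement from a run of the one-curve certificate. -/

open Finset Polynomial

namespace Vale.Agent.P181.H177.Cv

theorem fn_eq_list (E : List (ℕ × ℕ)) {a : ℕ} (n : Fin a → ℕ × ℕ) :
    fn E n = ((List.ofFn n).map (fun p => tb (X : ℕ[X]) E p.1 p.2)).prod := by
  rw [List.map_ofFn, List.prod_ofFn]
  rfl

theorem fn_comp (E : List (ℕ × ℕ)) {a : ℕ} (n : Fin a → ℕ × ℕ) (σ : Equiv.Perm (Fin a)) :
    fn E (fun r => n (σ r)) = fn E n :=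
  Equiv.prod_comp σ (fun r => tb (X : ℕ[X]) E (n r).1 (n r).2)

theorem fn_eval_one (E : List (ℕ × ℕ)) {a : ℕ} (n : Fin a → ℕ × ℕ) :
    (fn E n).eval 1 = ((List.ofFn n).map (fun p => tn 1 E p.1 p.2)).prod := by
  rw [List.map_ofFn, List.prod_ofFn, fn, eval_prod]
  refine Finset.prod_congr rfl fun r _ => ?_
  rw [tb_eval]
  rfl

theorem mem_tupN {a N Z Y : ℕ} {n : Fin a → ℕ × ℕ} :
    n ∈ tupN a N Z Y ↔ ((∀ r, (n r).1 < N + 1 ∧ (n r).2 < N + 1) ∧ ∑ r, (n r).1 = Z) ∧
      ∑ r, (n r).2 = Y := by
  simp only [tupN, allN, Finset.mem_filter, Fintype.mem_piFinset, Finset.mem_product,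
    Finset.mem_range]

variable {A : Type*} [CommRing A] [Algebra ℂ A]

theorem baseAt_of_run {L : Submodule ℂ A} (w am bm B v D Mx k m : ℕ) (E : List (ℕ × ℕ))
    (C : ℕ) (cs : List (ℕ × ℕ)) (cd : ℕ × ℕ → ℕ) (hMx : 1 ≤ Mx)
    (hE : ∀ e ∈ E, e.1 ≤ am ∧ e.2 ≤ bm)
    (hcs1 : cs.Pairwise (fun p q => cd p < cd q)) (hcs2 : cs.Pairwise (fun p q => q.1 ≤ p.1))
    (hcs3 : ∀ g b, g + b ≤ E.length → (g, b) ∈ cs)
    (hcsM : ∀ p ∈ cs, tn 1 E p.1 p.2 ≤ Mx)
    (ht : List.Pairwise (fun p q => cd p ≤ cd q)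
      ((E.length, 0) :: List.replicate k ((0, m) : ℕ × ℕ)))
    (hm : m ≤ E.length)
    (hrun : chk w am bm B (tn (2 ^ w) E) (tn 1 E) (k + 1) cs E.length (k * m) C 1
      (some ((E.length, 0) :: List.replicate k ((0, m) : ℕ × ℕ))) = true)
    (hdig : digB w v D C = true)
    (R : ℕ) (hR : E.length * am + k * m * bm + 1 = R)
    (htop : Nat.blt C (Nat.pow 2 (Nat.mul w R)) = true)
    (hbd : 2 ^ D * 2 ^ v * Mx ^ (k + 1) < 2 ^ w) :
    ∀ x ∈ L, ∀ y ∈ L, H780.BaseAt L k E.length (x ^ (E.length - m) * y ^ m) := by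
  intro x hx y hy G hs hK h hh
  have htop' : C < 2 ^ (w * (E.length * am + k * m * bm + 1)) := by
    rw [hR]
    rw [Nat.blt_eq] at htop
    exact htop
  set N := E.length with hN
  set R0 := N * am + k * m * bm with hR0
  set Q := cpoly w D C with hQ
  set t0 : List (ℕ × ℕ) := (N, 0) :: List.replicate k ((0, m) : ℕ × ℕ) with ht0
  -- the run
  have hQ1 : Q.eval 1 * Mx ^ (k + 1) < 2 ^ w :=
    lt_of_le_of_lt (Nat.mul_le_mul_right _ (cpoly_one w v D C hdig)) hbd
  have hQc : ∀ i, Q.coeff i < 2 ^ w := by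
    intro i
    refine lt_of_le_of_lt ((coeff_le_eval _ i).trans ?_) hQ1
    exact Nat.le_mul_of_pos_right _ (Nat.pow_pos hMx)
  have hgood := good_chk w am bm B R0 Mx hMx E hE cd (k + 1) cs N (k * m) C 1 (some t0) 0 Q
    hcs1 hcs2 hcsM (by rw [zero_add]) (win_cpoly hQc htop') hQ1 hrun
  -- the key statement
  have key : ∀ z ∈ L, G (Fin.cons (z ^ N) (fun _ => x ^ (N - m) * y ^ m)) = 0 := by
    intro z hz
    set g : (Fin (k + 1) → ℕ × ℕ) → ℂ := fun n => G (fun r => mo x z y N (n r)) with hg
    set val : (Fin (k + 1) → ℕ × ℕ) → ℂ := fun n =>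
      (((Q * fn E n).coeff R0 : ℕ) : ℂ) - (B : ℂ) * (((fn E n).eval 1 : ℕ) : ℂ) with hval
    let n1 : Fin (k + 1) → ℕ × ℕ := Fin.cons (N, 0) (fun _ => (0, m))
    have hn1 : List.ofFn n1 = t0 := by
      rw [List.ofFn_succ]
      simp only [n1, Fin.cons_zero, Fin.cons_succ, ht0]
      rw [List.ofFn_const]
    have hsum : ∑ n ∈ tupN (k + 1) N N (k * m), val n * g n = 0 := by
      have h2 := rel2 E G hK hx hz hy N (k * m) Q R0
      have h3 := rel3 E G hK hx hz hy N (k * m)
      rw [← hN] at h2 h3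
      have h4 : ∀ n : Fin (k + 1) → ℕ × ℕ, val n * g n =
          (((Q * fn E n).coeff R0 : ℕ) : ℂ) * G (fun r => mo x z y N (n r)) -
          (B : ℂ) * ((((fn E n).eval 1 : ℕ) : ℂ) * G (fun r => mo x z y N (n r))) := by
        intro n
        simp only [hval, hg]
        ring
      rw [Finset.sum_congr rfl (fun n _ => h4 n), Finset.sum_sub_distrib, ← Finset.mul_sum,
        h2, h3, mul_zero, sub_zero]
    have hmono1 : Monotone (cd ∘ n1) := by
      rw [← hn1, List.pairwise_ofFn] at ht
      intro i j hij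
      rcases hij.lt_or_eq with h | h
      · exact ht h
      · rw [h]
    have hn1S : n1 ∈ tupN (k + 1) N N (k * m) := by
      rw [mem_tupN]
      refine ⟨⟨fun r => ?_, ?_⟩, ?_⟩
      · refine Fin.cases ?_ (fun r => ?_) r
        · simp only [n1, Fin.cons_zero]
          omega
        · simp only [n1, Fin.cons_succ]
          omega
      · rw [Fin.sum_univ_succ]
        simp [n1]
      · rw [Fin.sum_univ_succ]
        simp [n1]
    have hδ : val n1 ≠ 0 := by
      have h1 := (hgood t0 (by simp [ht0]) ht (by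
        intro p hp
        rw [ht0, List.mem_cons] at hp
        rcases hp with h | h
        · rw [h]
          exact hcs3 N 0 (by omega)
        · rw [List.eq_of_mem_replicate h]
          exact hcs3 0 m (by omega)) (by simp [ht0]) (by simp [ht0])).1 rfl
      rw [← hn1, ← fn_eq_list, ← fn_eval_one, one_mul] at h1
      intro h2
      apply h1
      have h3 : (((Q * fn E n1).coeff R0 : ℕ) : ℂ) = ((B * (fn E n1).eval 1 : ℕ) : ℂ) := by
        rw [Nat.cast_mul]
        exact sub_eq_zero.1 h2
      exact_mod_cast h3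
    have hcase : ∀ n ∈ tupN (k + 1) N N (k * m), val n * g n =
        if List.ofFn (fun r => n (Tuple.sort (cd ∘ n) r)) = t0 then val n1 * g n1 else 0 := by
      intro n hn
      rw [mem_tupN] at hn
      obtain ⟨⟨hn1', hn2⟩, hn3⟩ := hn
      set σ := Tuple.sort (cd ∘ n) with hσ
      have hfn : fn E (fun r => n (σ r)) = fn E n := fn_comp E n σ
      have hvaln : val (fun r => n (σ r)) = val n := by
        simp only [hval, hfn]
      have hgn : g (fun r => n (σ r)) = g n := hs σ (fun r => mo x z y N (n r))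
      split_ifs with hl
      · have h1 : (fun r => n (σ r)) = n1 := by
          rw [← hn1] at hl
          exact List.ofFn_injective hl
        rw [← hvaln, ← hgn, h1]
      · have hv0 : val n = 0 := by
          by_cases hall : ∀ r, (n r).1 + (n r).2 ≤ N
          · have h1 := (hgood (List.ofFn (fun r => n (σ r))) (by simp) (by
              rw [List.pairwise_ofFn]
              intro i j hij
              exact Tuple.monotone_sort (cd ∘ n) hij.le) (by
              intro p hp
              rw [List.mem_ofFn] at hp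
              obtain ⟨r, rfl⟩ := hp
              exact hcs3 _ _ (hall (σ r))) (by
              rw [List.map_ofFn, List.sum_ofFn, ← hn2]
              exact Equiv.sum_comp σ (fun r => (n r).1)) (by
              rw [List.map_ofFn, List.sum_ofFn, ← hn3]
              exact Equiv.sum_comp σ (fun r => (n r).2))).2 (by
              intro h2
              rw [Option.some.injEq] at h2
              exact hl h2.symm)
            rw [← fn_eq_list, ← fn_eval_one, one_mul, hfn] at h1
            simp only [hval, h1, Nat.cast_mul, sub_self]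
          · obtain ⟨r, hr⟩ := not_forall.1 hall
            rw [not_le] at hr
            have h1 : fn E n = 0 :=
              Finset.prod_eq_zero (Finset.mem_univ r) (tb_eq_zero _ _ _ _ (by omega))
            simp only [hval, h1, mul_zero, Polynomial.coeff_zero, Polynomial.eval_zero,
              Nat.cast_zero, sub_self]
        rw [hv0, zero_mul]
    rw [Finset.sum_congr rfl hcase, ← Finset.sum_filter, Finset.sum_const, nsmul_eq_mul] at hsum
    have hcard : ((({n ∈ tupN (k + 1) N N (k * m) |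
        List.ofFn (fun r => n (Tuple.sort (cd ∘ n) r)) = t0} : Finset _).card : ℕ) : ℂ) ≠ 0 := by
      rw [Nat.cast_ne_zero]
      apply Finset.card_ne_zero_of_mem (a := n1)
      rw [Finset.mem_filter]
      refine ⟨hn1S, ?_⟩
      rw [(Tuple.sort_eq_refl_iff_monotone).2 hmono1]
      exact hn1
    have hg1 : g n1 = 0 := by
      rcases mul_eq_zero.1 hsum with h1 | h1
      · exact absurd h1 hcard
      · rcases mul_eq_zero.1 h1 with h2 | h2
        · exact absurd h2 hδ
        · exact h2
    rw [← hg1, hg]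
    congr 1
    funext r
    refine Fin.cases ?_ (fun r => ?_) r
    · simp [n1, mo]
    · simp [n1, mo]
  -- linear extension
  let φ : A →ₗ[ℂ] ℂ := G.toLinearMap (Fin.cons 0 (fun _ => x ^ (N - m) * y ^ m)) 0
  have hφ : ∀ z, φ z = G.curryLeft z (fun _ => x ^ (N - m) * y ^ m) := by
    intro z
    change G (Function.update (Fin.cons 0 (fun _ => x ^ (N - m) * y ^ m)) 0 z) = _
    rw [Fin.update_cons_zero]
    rfl
  have hle : L ^ N ≤ LinearMap.ker φ := by
    refine (pow_le_span_pow L _).trans ?_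
    rw [Submodule.span_le]
    rintro _ ⟨θ, hθ, rfl⟩
    simp only [SetLike.mem_coe, LinearMap.mem_ker]
    rw [hφ]
    exact key θ hθ
  have h9 := hle hh
  rw [LinearMap.mem_ker, hφ] at h9
  exact h9

end Vale.Agent.P181.H177.Cv
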