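set_option autoImplicit false

/-! The kernel program of the one-curve certificate. Only core definitions. -/

namespace Vale.Agent.P181.H177.Cv

/-- The table `tb` on natural numbers. -/
def tn (T : Nat) : List (Nat × Nat) → Nat → Nat → Nat
  | [], 0, 0 => 1
  | [], 0, _ + 1 => 0
  | [], _ + 1, _ => 0
  | _ :: E, 0, 0 => tn T E 0 0
  | e :: E, 0, b + 1 => Nat.add (tn T E 0 (b + 1)) (Nat.mul (Nat.pow T e.2) (tn T E 0 b))
  | e :: E, g + 1, 0 => Nat.add (tn T E (g + 1) 0) (Nat.mul (Nat.pow T e.1) (tn T E g 0))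
  | e :: E, g + 1, b + 1 =>
    Nat.add (Nat.add (tn T E (g + 1) (b + 1)) (Nat.mul (Nat.pow T e.1) (tn T E g (b + 1))))
      (Nat.mul (Nat.pow T e.2) (tn T E (g + 1) b))

/-- Following the target list. -/
def nextT (p : Nat × Nat) : Option (List (Nat × Nat)) → Option (List (Nat × Nat))
  | some (q :: t) => cond (and (Nat.beq q.1 p.1) (Nat.beq q.2 p.2)) (some t) none
  | _ => none

/-- The comparison at a full tuple. -/
def leafB (B Z Y vec cnt : Nat) : Option (List (Nat × Nat)) → Bool
  | some [] => cond (Nat.beq (Nat.add Z Y) 0) (not (Nat.beq vec (Nat.mul B cnt))) true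
  | _ => cond (Nat.beq (Nat.add Z Y) 0) (Nat.beq vec (Nat.mul B cnt)) true

/-- One more place. -/
def scan (w am bm : Nat) (P M : Nat → Nat → Nat) (j : Nat)
    (f : List (Nat × Nat) → Nat → Nat → Nat → Nat → Option (List (Nat × Nat)) → Bool) :
    List (Nat × Nat) → Nat → Nat → Nat → Nat → Option (List (Nat × Nat)) → Bool
  | [], _, _, _, _, _ => true
  | p :: cs, Z, Y, vec, cnt, ot =>
    cond (Nat.ble Z (Nat.mul (Nat.succ j) p.1))
      (and (cond (and (Nat.ble p.1 Z) (Nat.ble p.2 Y))
          (f (p :: cs) (Nat.sub Z p.1) (Nat.sub Y p.2)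
            (Nat.mod (Nat.shiftRight (Nat.mul vec (P p.1 p.2))
                (Nat.mul w (Nat.add (Nat.mul p.1 am) (Nat.mul p.2 bm))))
              (Nat.pow 2 (Nat.mul w (Nat.succ (Nat.add (Nat.mul (Nat.sub Z p.1) am)
                (Nat.mul (Nat.sub Y p.2) bm))))))
            (Nat.mul cnt (M p.1 p.2)) (nextT p ot))
          true)
        (scan w am bm P M j f cs Z Y vec cnt ot))
      true

/-- Depth-first search over the sorted tuples of places. -/
def chk (w am bm B : Nat) (P M : Nat → Nat → Nat) : Nat → List (Nat × Nat) → Nat → Nat → Nat →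
    Nat → Option (List (Nat × Nat)) → Bool
  | 0, _, Z, Y, vec, cnt, ot => leafB B Z Y vec cnt ot
  | j + 1, cs, Z, Y, vec, cnt, ot =>
    scan w am bm P M j (chk w am bm B P M j) cs Z Y vec cnt ot

/-- All digits (in base `2 ^ w`, `2 ^ d` of them) are below `2 ^ v`. -/
def digB (w v : Nat) : Nat → Nat → Bool
  | 0, C => Nat.blt C (Nat.pow 2 v)
  | d + 1, C => and (digB w v d (Nat.mod C (Nat.pow 2 (Nat.mul w (Nat.pow 2 d)))))
      (digB w v d (Nat.shiftRight C (Nat.mul w (Nat.pow 2 d))))

/-- Joining the pieces of a long number. -/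
def joinC (s : Nat) : List Nat → Nat
  | [] => 0
  | c :: cs => Nat.add c (Nat.shiftLeft (joinC s cs) s)

end Vale.Agent.P181.H177.Cv
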