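import Vale.Agent.P181.H177.Curve
import Vale.Agent.P181.H177.CurveP

set_option autoImplicit false

/-! Soundness of the depth-first search of the one-curve certificate. -/

open Finset Polynomial

namespace Vale.Agent.P181.H177.Cv

theorem tn_eq (T : ℕ) (E : List (ℕ × ℕ)) (g b : ℕ) : tn T E g b = tb T E g b := by
  induction E generalizing g b with
  | nil => cases g <;> cases b <;> simp [tn, tb]
  | cons e E ih =>
    cases g <;> cases b <;> simp [tn, tb, ih]

/-- A window of digits. -/
def win (T : ℕ) (V : ℕ[X]) (s n : ℕ) : ℕ := ∑ i ∈ range n, V.coeff (s + i) * T ^ i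

theorem win_lt {T : ℕ} {V : ℕ[X]} (h : ∀ i, V.coeff i < T) (s n : ℕ) : win T V s n < T ^ n := by
  induction n with
  | zero => simp [win]
  | succ n ih =>
    have h1 : win T V s (n + 1) = win T V s n + V.coeff (s + n) * T ^ n := by
      rw [win, Finset.sum_range_succ, win]
    have h2 : V.coeff (s + n) * T ^ n + T ^ n ≤ T * T ^ n := by
      have h3 : V.coeff (s + n) + 1 ≤ T := h (s + n)
      calc V.coeff (s + n) * T ^ n + T ^ n = (V.coeff (s + n) + 1) * T ^ n := by ring
        _ ≤ T * T ^ n := Nat.mul_le_mul_right _ h3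
    rw [h1, pow_succ, mul_comm (T ^ n) T]
    omega

theorem win_add (T : ℕ) (V : ℕ[X]) (s d n : ℕ) :
    win T V s (d + n) = win T V s d + T ^ d * win T V (s + d) n := by
  rw [win, Finset.sum_range_add, win, win, Finset.mul_sum]
  congr 1
  refine Finset.sum_congr rfl fun i _ => ?_
  rw [pow_add, add_assoc]
  ring

theorem win_div {T : ℕ} (hT : 0 < T) {V : ℕ[X]} (h : ∀ i, V.coeff i < T) (s d n : ℕ) :
    win T V s (d + n) / T ^ d = win T V (s + d) n := by
  rw [win_add, Nat.add_mul_div_left _ _ (Nat.pow_pos hT), Nat.div_eq_of_lt (win_lt h s d),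
    zero_add]

theorem win_mod {T : ℕ} {V : ℕ[X]} (h : ∀ i, V.coeff i < T) (s d n : ℕ) :
    win T V s (d + n) % T ^ d = win T V s d := by
  rw [win_add, Nat.add_mul_mod_self_left, Nat.mod_eq_of_lt (win_lt h s d)]

theorem eval_eq_win (T : ℕ) (V : ℕ[X]) (n : ℕ) (h : V.natDegree < n) :
    V.eval T = win T V 0 n := by
  rw [Polynomial.eval_eq_sum_range' h, win]
  refine Finset.sum_congr rfl fun i _ => ?_
  rw [zero_add]

theorem coeff_le_eval (V : ℕ[X]) (i : ℕ) : V.coeff i ≤ V.eval 1 := by
  by_cases hi : i < V.natDegree + 1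
  · rw [Polynomial.eval_eq_sum_range]
    have h1 := Finset.single_le_sum (f := fun i => V.coeff i * 1 ^ i)
      (fun j _ => Nat.zero_le _) (Finset.mem_range.2 hi)
    simpa using h1
  · rw [Polynomial.coeff_eq_zero_of_natDegree_lt (by omega)]
    exact Nat.zero_le _

theorem step_win {T : ℕ} (hT : 0 < T) {V p : ℕ[X]} {s R d : ℕ} (hp : p.natDegree ≤ d)
    (hd : d ≤ R) (hc : ∀ i, (V * p).coeff i < T) :
    win T V s (R + 1) * p.eval T / T ^ d % T ^ (R - d + 1) =
      win T (V * p) (s + d) (R - d + 1) := by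
  let W : ℕ[X] := ∑ i ∈ range (R + 1), monomial i (V.coeff (s + i))
  let Lo : ℕ[X] := ∑ i ∈ range s, monomial i (V.coeff i)
  let Hi : ℕ[X] := ∑ i ∈ range (V.natDegree + 1), monomial i (V.coeff (s + R + 1 + i))
  have hW : ∀ i, W.coeff i = if i < R + 1 then V.coeff (s + i) else 0 := by
    intro i
    simp only [W, Polynomial.finsetSum_coeff, Polynomial.coeff_monomial,
      Finset.sum_ite_eq', Finset.mem_range]
  have hLo : ∀ i, Lo.coeff i = if i < s then V.coeff i else 0 := by
    intro i
    simp only [Lo, Polynomial.finsetSum_coeff, Polynomial.coeff_monomial,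
      Finset.sum_ite_eq', Finset.mem_range]
  have hHi : ∀ i, Hi.coeff i = if i < V.natDegree + 1 then V.coeff (s + R + 1 + i) else 0 := by
    intro i
    simp only [Hi, Polynomial.finsetSum_coeff, Polynomial.coeff_monomial,
      Finset.sum_ite_eq', Finset.mem_range]
  have hV : V = Lo + X ^ s * W + X ^ (s + R + 1) * Hi := by
    ext i
    rw [coeff_add, coeff_add, coeff_X_pow_mul', coeff_X_pow_mul', hLo]
    by_cases h1 : i < s
    · rw [if_pos h1, if_neg (by omega), if_neg (by omega), add_zero, add_zero]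
    · rw [if_neg h1, if_pos (by omega), hW, zero_add]
      by_cases h2 : i - s < R + 1
      · rw [if_pos h2, if_neg (by omega), add_zero]
        congr 1
        omega
      · rw [if_neg h2, if_pos (by omega), hHi, zero_add]
        by_cases h3 : i - (s + R + 1) < V.natDegree + 1
        · rw [if_pos h3]
          congr 1
          omega
        · rw [if_neg h3]
          exact Polynomial.coeff_eq_zero_of_natDegree_lt (by omega)
  have hVp : ∀ i, (V * p).coeff (s + i) = (Lo * p).coeff (s + i) + (W * p).coeff i +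
      (X ^ (s + R + 1) * (Hi * p)).coeff (s + i) := by
    intro i
    conv_lhs => rw [hV]
    rw [add_mul, add_mul, coeff_add, coeff_add, mul_assoc, mul_assoc]
    congr 2
    rw [coeff_X_pow_mul', if_pos (by omega)]
    congr 1
    omega
  have hWe : W.eval T = win T V s (R + 1) := by
    simp only [W, Polynomial.eval_finsetSum, Polynomial.eval_monomial, win]
  have hWc : ∀ i, (W * p).coeff i < T := by
    intro i
    have h1 := hc (s + i)
    rw [hVp i] at h1
    omega
  rw [← hWe, ← Polynomial.eval_mul]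
  have h1 := eval_eq_win T (W * p) (d + ((R - d + 1) + ((W * p).natDegree + 1))) (by omega)
  rw [h1, win_div hT hWc, win_mod hWc, win, win]
  refine Finset.sum_congr rfl fun i hi => ?_
  rw [Finset.mem_range] at hi
  congr 1
  rw [zero_add, add_assoc, hVp (d + i)]
  have h2 : (Lo * p).coeff (s + (d + i)) = 0 := by
    rw [Polynomial.coeff_mul]
    refine Finset.sum_eq_zero fun q hq => ?_
    rw [Finset.mem_antidiagonal] at hq
    rw [hLo]
    by_cases h3 : q.1 < s
    · rw [Polynomial.coeff_eq_zero_of_natDegree_lt (p := p) (n := q.2) (by omega), mul_zero]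
    · rw [if_neg h3, zero_mul]
  have h3 : (X ^ (s + R + 1) * (Hi * p)).coeff (s + (d + i)) = 0 := by
    rw [coeff_X_pow_mul', if_neg (by omega)]
  rw [h2, h3, zero_add, add_zero]

theorem tb_natDegree {am bm : ℕ} {E : List (ℕ × ℕ)} (hE : ∀ e ∈ E, e.1 ≤ am ∧ e.2 ≤ bm)
    (g b : ℕ) : (tb (X : ℕ[X]) E g b).natDegree ≤ g * am + b * bm := by
  induction E generalizing g b with
  | nil =>
    simp only [tb]
    split_ifs
    · rw [natDegree_one]; exact Nat.zero_le _
    · rw [natDegree_zero]; exact Nat.zero_le _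
  | cons e E ih =>
    have ih' := ih (fun e he => hE e (List.mem_cons_of_mem _ he))
    obtain ⟨h1, h2⟩ := hE e List.mem_cons_self
    simp only [tb]
    refine (natDegree_add_le _ _).trans (max_le ((natDegree_add_le _ _).trans (max_le ?_ ?_)) ?_)
    · exact ih' g b
    · split_ifs with hg
      · rw [natDegree_zero]; exact Nat.zero_le _
      · obtain ⟨g, rfl⟩ := Nat.exists_eq_succ_of_ne_zero hg
        refine natDegree_mul_le.trans ?_
        rw [natDegree_X_pow]
        have h3 := ih' g b
        rw [Nat.succ_eq_add_one, Nat.add_sub_cancel, add_mul, one_mul]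
        omega
    · split_ifs with hb
      · rw [natDegree_zero]; exact Nat.zero_le _
      · obtain ⟨b, rfl⟩ := Nat.exists_eq_succ_of_ne_zero hb
        refine natDegree_mul_le.trans ?_
        rw [natDegree_X_pow]
        have h3 := ih' g b
        rw [Nat.succ_eq_add_one, Nat.add_sub_cancel, add_mul, one_mul]
        omega

theorem tb_eval (T : ℕ) (E : List (ℕ × ℕ)) (g b : ℕ) :
    (tb (X : ℕ[X]) E g b).eval T = tn T E g b := by
  have h1 := tb_map (Polynomial.evalRingHom T) (X : ℕ[X]) E g b
  rw [tn_eq]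
  simpa using h1

/-- The statement proved by one run: `s` is the position of the window, `V` the product so far,
`j` the number of places still to be chosen. -/
def Good (w am bm B R0 Mx : ℕ) (E : List (ℕ × ℕ)) (cd : ℕ × ℕ → ℕ) (j : ℕ)
    (f : List (ℕ × ℕ) → ℕ → ℕ → ℕ → ℕ → Option (List (ℕ × ℕ)) → Bool) : Prop :=
  ∀ (cs : List (ℕ × ℕ)) (Z Y vec cnt : ℕ) (ot : Option (List (ℕ × ℕ))) (s : ℕ) (V : ℕ[X]),
    cs.Pairwise (fun p q => cd p < cd q) → cs.Pairwise (fun p q => q.1 ≤ p.1) →
    (∀ p ∈ cs, tn 1 E p.1 p.2 ≤ Mx) →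
    s + (Z * am + Y * bm) = R0 → vec = win (2 ^ w) V s (Z * am + Y * bm + 1) →
    V.eval 1 * Mx ^ j < 2 ^ w → f cs Z Y vec cnt ot = true →
    ∀ l : List (ℕ × ℕ), l.length = j → l.Pairwise (fun p q => cd p ≤ cd q) →
      (∀ p ∈ l, p ∈ cs) → (l.map Prod.fst).sum = Z → (l.map Prod.snd).sum = Y →
      ((ot = some l →
        (V * (l.map (fun p => tb (X : ℕ[X]) E p.1 p.2)).prod).coeff R0 ≠
          B * (cnt * (l.map (fun p => tn 1 E p.1 p.2)).prod)) ∧
      (ot ≠ some l →
        (V * (l.map (fun p => tb (X : ℕ[X]) E p.1 p.2)).prod).coeff R0 =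
          B * (cnt * (l.map (fun p => tn 1 E p.1 p.2)).prod)))

theorem good_zero (w am bm B R0 Mx : ℕ) (E : List (ℕ × ℕ)) (cd : ℕ × ℕ → ℕ)
    (P M : ℕ → ℕ → ℕ) : Good w am bm B R0 Mx E cd 0 (chk w am bm B P M 0) := by
  intro cs Z Y vec cnt ot s V _ _ _ hs hvec _ hf l hl _ _ hZ hY
  rw [List.length_eq_zero_iff] at hl
  subst hl
  rw [List.map_nil, List.sum_nil] at hZ hY
  subst hZ hY
  rw [zero_mul, zero_mul, add_zero, add_zero] at hs
  subst hs
  have hv : vec = V.coeff s := by
    rw [hvec]
    simp [win]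
  subst hv
  simp only [List.map_nil, List.prod_nil, mul_one]
  simp only [chk] at hf
  rcases ot with - | t
  · simp only [leafB, Nat.add_eq, add_zero, Nat.beq_refl, cond_true] at hf
    exact ⟨fun h => by simp at h, fun _ => Nat.eq_of_beq_eq_true hf⟩
  · rcases t with - | ⟨q, t⟩
    · simp only [leafB, Nat.add_eq, add_zero, Nat.beq_refl, cond_true, Bool.not_eq_true'] at hf
      refine ⟨fun _ h => ?_, fun h => absurd rfl h⟩
      rw [Nat.mul_eq, ← h, Nat.beq_refl] at hf
      exact Bool.noConfusion hf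
    · simp only [leafB, Nat.add_eq, add_zero, Nat.beq_refl, cond_true] at hf
      exact ⟨fun h => by simp at h, fun _ => Nat.eq_of_beq_eq_true hf⟩

theorem nextT_iff (p : ℕ × ℕ) (ot : Option (List (ℕ × ℕ))) (l : List (ℕ × ℕ)) :
    nextT p ot = some l ↔ ot = some (p :: l) := by
  rcases ot with - | t
  · simp [nextT]
  · rcases t with - | ⟨q, t⟩
    · simp [nextT]
    · simp only [nextT]
      by_cases h : q = p
      · subst h
        simp
      · have h1 : (and (Nat.beq q.1 p.1) (Nat.beq q.2 p.2)) = false := by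
          rw [Bool.eq_false_iff]
          intro h2
          rw [Bool.and_eq_true] at h2
          exact h (Prod.ext (Nat.eq_of_beq_eq_true h2.1) (Nat.eq_of_beq_eq_true h2.2))
        rw [h1, cond_false]
        constructor
        · intro h3
          simp at h3
        · intro h3
          rw [Option.some.injEq, List.cons.injEq] at h3
          exact absurd h3.1 h

theorem sum_le_mul (l : List (ℕ × ℕ)) (c : ℕ) (h : ∀ q ∈ l, q.1 ≤ c) :
    (l.map Prod.fst).sum ≤ l.length * c := by
  induction l with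
  | nil => simp
  | cons q l ih =>
    rw [List.map_cons, List.sum_cons, List.length_cons, add_mul, one_mul]
    have h1 := h q List.mem_cons_self
    have h2 := ih (fun r hr => h r (List.mem_cons_of_mem _ hr))
    omega

theorem good_scan (w am bm B R0 Mx : ℕ) (hMx : 1 ≤ Mx) (E : List (ℕ × ℕ))
    (hE : ∀ e ∈ E, e.1 ≤ am ∧ e.2 ≤ bm) (cd : ℕ × ℕ → ℕ) (j : ℕ)
    (f : List (ℕ × ℕ) → ℕ → ℕ → ℕ → ℕ → Option (List (ℕ × ℕ)) → Bool)
    (hf : Good w am bm B R0 Mx E cd j f) :
    Good w am bm B R0 Mx E cd (j + 1) (scan w am bm (tn (2 ^ w) E) (tn 1 E) j f) := by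
  intro cs
  induction cs with
  | nil =>
    intro Z Y vec cnt ot s V _ _ _ _ _ _ _ l hl _ hm
    rcases l with - | ⟨c, l⟩
    · simp at hl
    · exact absurd (hm c List.mem_cons_self) (by simp)
  | cons p cs ih =>
    intro Z Y vec cnt ot s V hc1 hc2 hc3 hs hvec hbd hrun l hl hsort hm hZ hY
    simp only [scan] at hrun
    have hle : ∀ q ∈ l, q.1 ≤ p.1 := by
      intro q hq
      rcases List.mem_cons.1 (hm q hq) with h | h
      · rw [h]
      · exact (List.pairwise_cons.1 hc2).1 q h
    have hZle : Z ≤ (j + 1) * p.1 := by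
      rw [← hZ, ← hl]
      exact sum_le_mul l p.1 hle
    have h1 : Nat.ble Z (Nat.mul (Nat.succ j) p.1) = true := by
      rw [Nat.ble_eq]
      exact hZle
    rw [h1, cond_true, Bool.and_eq_true] at hrun
    obtain ⟨hr1, hr2⟩ := hrun
    rcases l with - | ⟨c, l⟩
    · simp at hl
    · rw [List.length_cons, Nat.add_right_cancel_iff] at hl
      rw [List.map_cons, List.sum_cons] at hZ hY
      by_cases hcp : c = p
      · subst hcp
        have h2 : (and (Nat.ble c.1 Z) (Nat.ble c.2 Y)) = true := by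
          rw [Bool.and_eq_true, Nat.ble_eq, Nat.ble_eq]
          omega
        rw [h2, cond_true] at hr1
        set p : ℕ[X] := tb X E c.1 c.2 with hp
        have hM : p.eval 1 = tn 1 E c.1 c.2 := tb_eval 1 E c.1 c.2
        have hMle := hc3 c List.mem_cons_self
        have hV1 : (V * p).eval 1 * Mx ^ j < 2 ^ w := by
          refine lt_of_le_of_lt ?_ hbd
          rw [eval_mul, hM, pow_succ, mul_assoc]
          refine Nat.mul_le_mul_left _ ?_
          rw [mul_comm]
          exact Nat.mul_le_mul_left _ hMle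
        have hco : ∀ i, (V * p).coeff i < 2 ^ w := by
          intro i
          refine lt_of_le_of_lt ((coeff_le_eval _ i).trans ?_) hV1
          exact Nat.le_mul_of_pos_right _ (Nat.pow_pos hMx)
        obtain ⟨Z', rfl⟩ : ∃ Z', Z = c.1 + Z' := ⟨(l.map Prod.fst).sum, hZ.symm⟩
        obtain ⟨Y', rfl⟩ : ∃ Y', Y = c.2 + Y' := ⟨(l.map Prod.snd).sum, hY.symm⟩
        have hZ' : (l.map Prod.fst).sum = Z' := by omega
        have hY' : (l.map Prod.snd).sum = Y' := by omega
        have hR : (c.1 + Z') * am + (c.2 + Y') * bm - (c.1 * am + c.2 * bm) =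
            Z' * am + Y' * bm := by
          have : (c.1 + Z') * am + (c.2 + Y') * bm =
              (c.1 * am + c.2 * bm) + (Z' * am + Y' * bm) := by ring
          omega
        have hw := step_win (T := 2 ^ w) (Nat.pow_pos (by norm_num)) (V := V) (p := p) (s := s)
          (R := (c.1 + Z') * am + (c.2 + Y') * bm) (d := c.1 * am + c.2 * bm)
          (tb_natDegree hE c.1 c.2) (by
            have : (c.1 + Z') * am + (c.2 + Y') * bm =
              (c.1 * am + c.2 * bm) + (Z' * am + Y' * bm) := by ring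
            omega) hco
        rw [hR, tb_eval, ← hvec, ← pow_mul, ← pow_mul] at hw
        have e1 : Nat.sub (c.1 + Z') c.1 = Z' := Nat.add_sub_cancel_left _ _
        have e2 : Nat.sub (c.2 + Y') c.2 = Y' := Nat.add_sub_cancel_left _ _
        rw [e1, e2] at hr1
        have e0 : Nat.mod (Nat.shiftRight (Nat.mul vec (tn (2 ^ w) E c.1 c.2))
                (Nat.mul w (Nat.add (Nat.mul c.1 am) (Nat.mul c.2 bm))))
              (Nat.pow 2 (Nat.mul w (Nat.succ (Nat.add (Nat.mul Z' am) (Nat.mul Y' bm))))) =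
            vec * tn (2 ^ w) E c.1 c.2 / 2 ^ (w * (c.1 * am + c.2 * bm)) %
              2 ^ (w * (Z' * am + Y' * bm + 1)) := by
          rw [← Nat.shiftRight_eq_div_pow]
          rfl
        rw [e0] at hr1
        have h3 := hf (c :: cs) Z' Y' _ (cnt * tn 1 E c.1 c.2) (nextT c ot)
          (s + (c.1 * am + c.2 * bm)) (V * p) hc1 hc2 hc3 (by
            rw [← hs]; ring) hw hV1 hr1 l hl (List.pairwise_cons.1 hsort).2
          (fun q hq => hm q (List.mem_cons_of_mem _ hq)) hZ' hY'
        have e3 : V * ((c :: l).map (fun p => tb (X : ℕ[X]) E p.1 p.2)).prod =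
            V * p * (l.map (fun p => tb (X : ℕ[X]) E p.1 p.2)).prod := by
          rw [List.map_cons, List.prod_cons, mul_assoc]
        have e4 : cnt * ((c :: l).map (fun p => tn 1 E p.1 p.2)).prod =
            cnt * tn 1 E c.1 c.2 * (l.map (fun p => tn 1 E p.1 p.2)).prod := by
          rw [List.map_cons, List.prod_cons, mul_assoc]
        rw [e3, e4, ← nextT_iff]
        exact ⟨h3.1, fun h => h3.2 (fun h' => h ((nextT_iff _ _ _).1 h'))⟩
      · have hcc : c ∈ cs := by
          rcases List.mem_cons.1 (hm c List.mem_cons_self) with h | h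
          · exact absurd h hcp
          · exact h
        have hlt : cd p < cd c := (List.pairwise_cons.1 hc1).1 c hcc
        refine ih Z Y vec cnt ot s V (List.pairwise_cons.1 hc1).2 (List.pairwise_cons.1 hc2).2
          (fun q hq => hc3 q (List.mem_cons_of_mem _ hq)) hs hvec hbd hr2 (c :: l)
          (by rw [List.length_cons, hl]) hsort ?_ (by rw [List.map_cons, List.sum_cons, hZ])
          (by rw [List.map_cons, List.sum_cons, hY])
        intro q hq
        rcases List.mem_cons.1 hq with h | h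
        · rw [h]; exact hcc
        · have h4 : cd c ≤ cd q := (List.pairwise_cons.1 hsort).1 q h
          rcases List.mem_cons.1 (hm q hq) with h5 | h5
          · rw [h5] at h4
            omega
          · exact h5

theorem good_chk (w am bm B R0 Mx : ℕ) (hMx : 1 ≤ Mx) (E : List (ℕ × ℕ))
    (hE : ∀ e ∈ E, e.1 ≤ am ∧ e.2 ≤ bm) (cd : ℕ × ℕ → ℕ) (j : ℕ) :
    Good w am bm B R0 Mx E cd j (chk w am bm B (tn (2 ^ w) E) (tn 1 E) j) := by
  induction j with
  | zero => exact good_zero w am bm B R0 Mx E cd _ _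
  | succ j ih => exact good_scan w am bm B R0 Mx hMx E hE cd j _ ih

/-- The polynomial of the certificate. -/
noncomputable def cpoly (w : ℕ) : ℕ → ℕ → ℕ[X]
  | 0, c => Polynomial.C c
  | d + 1, c => cpoly w d (c % 2 ^ (w * 2 ^ d)) + X ^ (2 ^ d) * cpoly w d (c / 2 ^ (w * 2 ^ d))

theorem cpoly_eval (w d c : ℕ) : (cpoly w d c).eval (2 ^ w) = c := by
  induction d generalizing c with
  | zero => simp [cpoly]
  | succ d ih =>
    rw [cpoly, eval_add, eval_mul, eval_pow, eval_X, ih, ih, ← pow_mul, Nat.mod_add_div]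

theorem cpoly_one (w v d c : ℕ) (h : digB w v d c = true) :
    (cpoly w d c).eval 1 ≤ 2 ^ d * 2 ^ v := by
  induction d generalizing c with
  | zero =>
    simp only [digB] at h
    rw [Nat.blt_eq] at h
    simp only [cpoly, eval_C, pow_zero, one_mul]
    exact le_of_lt h
  | succ d ih =>
    simp only [digB] at h
    rw [Bool.and_eq_true] at h
    obtain ⟨h1, h2⟩ := h
    have h3 := ih _ h1
    have h4 : (c >>> (w * 2 ^ d)) = c / 2 ^ (w * 2 ^ d) := Nat.shiftRight_eq_div_pow _ _
    have h5 := ih (c / 2 ^ (w * 2 ^ d)) (by rw [← h4]; exact h2)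
    rw [cpoly, eval_add, eval_mul, eval_pow, eval_X, one_pow, one_mul]
    calc _ ≤ 2 ^ d * 2 ^ v + 2 ^ d * 2 ^ v := Nat.add_le_add h3 h5
      _ = 2 ^ (d + 1) * 2 ^ v := by ring

theorem win_cpoly {w d c n : ℕ} (hco : ∀ i, (cpoly w d c).coeff i < 2 ^ w)
    (hc : c < 2 ^ (w * n)) : c = win (2 ^ w) (cpoly w d c) 0 n := by
  have h1 := eval_eq_win (2 ^ w) (cpoly w d c) (n + ((cpoly w d c).natDegree + 1)) (by omega)
  have h2 := win_mod hco 0 n ((cpoly w d c).natDegree + 1)
  rw [← h2, ← h1, cpoly_eval, ← pow_mul, Nat.mod_eq_of_lt hc]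

end Vale.Agent.P181.H177.Cv
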