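import Vale.Agent.P181.H177.Vand

set_option autoImplicit false

/-!
# P181 (helper177): weight modules of `gl_n`, the Casimir operator, traces
-/

namespace Vale.Agent.P181.H177

open MvPolynomial

/-- Operators `E i j` satisfying the commutation rules of `gl_n`, with finite-dimensional weight
spaces. -/
structure GLMod (n : ℕ) (R : Type*) [AddCommGroup R] [Module ℂ R] where
  E : Fin n → Fin n → (R →ₗ[ℂ] R)
  M : (Fin n →₀ ℕ) → Submodule ℂ R
  d : ℕ
  comm : ∀ i j k l x, E i j (E k l x) = E k l (E i j x) + (if j = k then E i l x else 0) -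
    (if l = i then E k j x else 0)
  fin : ∀ μ, Module.Finite ℂ (M μ)
  diag : ∀ μ i, ∀ x ∈ M μ, E i i x = (μ i : ℂ) • x
  raise : ∀ μ i j, i ≠ j → ∀ x ∈ M (μ + Finsupp.single j 1), E i j x ∈ M (μ + Finsupp.single i 1)
  vanish : ∀ μ i j, i ≠ j → μ j = 0 → ∀ x ∈ M μ, E i j x = 0
  deg : ∀ μ, ∀ x ∈ M μ, x ≠ 0 → ∑ i, μ i = d

namespace GLMod

variable {n : ℕ} {R : Type*} [AddCommGroup R] [Module ℂ R] (G : GLMod n R)

lemma single_add_cancel {μ : Fin n →₀ ℕ} {i : Fin n} (h : 1 ≤ μ i) :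
    μ - Finsupp.single i 1 + Finsupp.single i 1 = μ := by
  apply tsub_add_cancel_of_le
  rwa [Finsupp.single_le_iff]

/-- The Casimir operator. -/
noncomputable def Om : R →ₗ[ℂ] R := ∑ i, ∑ j, G.E j i ∘ₗ G.E i j

lemma Om_apply (x : R) : G.Om x = ∑ i, ∑ j, G.E j i (G.E i j x) := by
  simp [Om, LinearMap.sum_apply]

lemma Om_comm (k l : Fin n) (x : R) : G.Om (G.E k l x) = G.E k l (G.Om x) := by
  classical
  rw [Om_apply, Om_apply, map_sum]
  have h1 : ∀ i j, G.E j i (G.E i j (G.E k l x)) = G.E k l (G.E j i (G.E i j x)) +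
      (if i = k then G.E j l (G.E i j x) else 0) - (if l = j then G.E k i (G.E i j x) else 0) +
      (if j = k then G.E j i (G.E i l x) else 0) - (if l = i then G.E j i (G.E k j x) else 0) := by
    intro i j
    rw [G.comm i j k l x, map_sub, map_add, G.comm j i k l (G.E i j x)]
    simp only [apply_ite (G.E j i), map_zero]
  rw [Finset.sum_congr rfl (fun i _ => Finset.sum_congr rfl (fun j _ => h1 i j))]
  simp only [Finset.sum_add_distrib, Finset.sum_sub_distrib]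
  have h2 : ∑ i, ∑ j, (if i = k then G.E j l (G.E i j x) else 0) = ∑ j, G.E j l (G.E k j x) := by
    rw [Finset.sum_comm]
    apply Finset.sum_congr rfl
    intro j _
    rw [Finset.sum_ite_eq' Finset.univ k (fun i => G.E j l (G.E i j x)),
      if_pos (Finset.mem_univ _)]
  have h3 : ∑ i, ∑ j, (if l = j then G.E k i (G.E i j x) else 0) = ∑ i, G.E k i (G.E i l x) := by
    apply Finset.sum_congr rfl
    intro i _
    rw [Finset.sum_ite_eq Finset.univ l (fun j => G.E k i (G.E i j x)),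
      if_pos (Finset.mem_univ _)]
  have h4 : ∑ i, ∑ j, (if j = k then G.E j i (G.E i l x) else 0) = ∑ i, G.E k i (G.E i l x) := by
    apply Finset.sum_congr rfl
    intro i _
    rw [Finset.sum_ite_eq' Finset.univ k (fun j => G.E j i (G.E i l x)),
      if_pos (Finset.mem_univ _)]
  have h5 : ∑ i, ∑ j, (if l = i then G.E j i (G.E k j x) else 0) = ∑ j, G.E j l (G.E k j x) := by
    rw [Finset.sum_comm]
    apply Finset.sum_congr rfl
    intro j _
    rw [Finset.sum_ite_eq Finset.univ l (fun i => G.E j i (G.E k j x)),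
      if_pos (Finset.mem_univ _)]
  rw [h2, h3, h4, h5]
  simp only [map_sum]
  abel

/-- The two step operators preserve the weight spaces. -/
lemma EE_mem {μ : Fin n →₀ ℕ} {i j : Fin n} (hij : i ≠ j) {x : R} (hx : x ∈ G.M μ) :
    G.E j i (G.E i j x) ∈ G.M μ := by
  by_cases h : μ j = 0
  · rw [G.vanish μ i j hij h x hx, map_zero]
    exact Submodule.zero_mem _
  · have h1 := single_add_cancel (Nat.one_le_iff_ne_zero.2 h)
    rw [← h1] at hx
    have h2 := G.raise _ i j hij x hx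
    have h3 := G.raise _ j i hij.symm _ h2
    rwa [h1] at h3

lemma E_diag_mem {μ : Fin n →₀ ℕ} (i : Fin n) {x : R} (hx : x ∈ G.M μ) : G.E i i x ∈ G.M μ := by
  rw [G.diag μ i x hx]
  exact Submodule.smul_mem _ _ hx

lemma Om_mem {μ : Fin n →₀ ℕ} {x : R} (hx : x ∈ G.M μ) : G.Om x ∈ G.M μ := by
  rw [Om_apply]
  apply Submodule.sum_mem
  intro i _
  apply Submodule.sum_mem
  intro j _
  by_cases h : i = j
  · subst h
    exact G.E_diag_mem i (G.E_diag_mem i hx)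
  · exact G.EE_mem h hx

/-- Endomorphisms commuting with the operators and preserving the weight spaces. -/
structure Cen (Z : R →ₗ[ℂ] R) : Prop where
  c : ∀ i j x, Z (G.E i j x) = G.E i j (Z x)
  m : ∀ μ, ∀ x ∈ G.M μ, Z x ∈ G.M μ

lemma cen_id : G.Cen LinearMap.id := ⟨fun _ _ _ => rfl, fun _ _ hx => hx⟩

lemma cen_add {Z Z' : R →ₗ[ℂ] R} (h : G.Cen Z) (h' : G.Cen Z') : G.Cen (Z + Z') :=
  ⟨fun i j x => by rw [LinearMap.add_apply, LinearMap.add_apply, h.c, h'.c, map_add],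
    fun μ x hx => Submodule.add_mem _ (h.m μ x hx) (h'.m μ x hx)⟩

lemma cen_smul {Z : R →ₗ[ℂ] R} (c : ℂ) (h : G.Cen Z) : G.Cen (c • Z) :=
  ⟨fun i j x => by rw [LinearMap.smul_apply, LinearMap.smul_apply, h.c, map_smul],
    fun μ x hx => Submodule.smul_mem _ _ (h.m μ x hx)⟩

lemma cen_comp_Om {Z : R →ₗ[ℂ] R} (h : G.Cen Z) : G.Cen (Z ∘ₗ G.Om) :=
  ⟨fun i j x => by rw [LinearMap.comp_apply, LinearMap.comp_apply, G.Om_comm, h.c],
    fun μ x hx => h.m μ _ (G.Om_mem hx)⟩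

/-! ### Traces -/

open Classical in
/-- The trace on a weight space. -/
noncomputable def tr (μ : Fin n →₀ ℕ) (T : R →ₗ[ℂ] R) : ℂ :=
  if h : ∀ x ∈ G.M μ, T x ∈ G.M μ then LinearMap.trace ℂ (G.M μ) (T.restrict h) else 0

lemma tr_eq {μ : Fin n →₀ ℕ} {T : R →ₗ[ℂ] R} (h : ∀ x ∈ G.M μ, T x ∈ G.M μ) :
    G.tr μ T = LinearMap.trace ℂ (G.M μ) (T.restrict h) := by
  rw [tr, dif_pos h]

lemma tr_congr {μ : Fin n →₀ ℕ} {T S : R →ₗ[ℂ] R} (h : ∀ x ∈ G.M μ, T x = S x) :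
    G.tr μ T = G.tr μ S := by
  by_cases hT : ∀ x ∈ G.M μ, T x ∈ G.M μ
  · have hS : ∀ x ∈ G.M μ, S x ∈ G.M μ := fun x hx => h x hx ▸ hT x hx
    rw [G.tr_eq hT, G.tr_eq hS]
    congr 1
    ext x
    exact h x x.2
  · have hS : ¬ ∀ x ∈ G.M μ, S x ∈ G.M μ := fun hS => hT (fun x hx => (h x hx).symm ▸ hS x hx)
    rw [tr, tr, dif_neg hT, dif_neg hS]

lemma tr_add {μ : Fin n →₀ ℕ} {T S : R →ₗ[ℂ] R} (hT : ∀ x ∈ G.M μ, T x ∈ G.M μ)
    (hS : ∀ x ∈ G.M μ, S x ∈ G.M μ) : G.tr μ (T + S) = G.tr μ T + G.tr μ S := by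
  have hTS : ∀ x ∈ G.M μ, (T + S) x ∈ G.M μ :=
    fun x hx => Submodule.add_mem _ (hT x hx) (hS x hx)
  rw [G.tr_eq hT, G.tr_eq hS, G.tr_eq hTS, ← map_add]
  rfl

lemma tr_smul {μ : Fin n →₀ ℕ} (c : ℂ) {T : R →ₗ[ℂ] R} (hT : ∀ x ∈ G.M μ, T x ∈ G.M μ) :
    G.tr μ (c • T) = c * G.tr μ T := by
  have hcT : ∀ x ∈ G.M μ, (c • T) x ∈ G.M μ := fun x hx => Submodule.smul_mem _ _ (hT x hx)
  rw [G.tr_eq hT, G.tr_eq hcT, ← smul_eq_mul, ← map_smul]
  rfl

lemma tr_zero (μ : Fin n →₀ ℕ) : G.tr μ 0 = 0 := by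
  have h := G.tr_smul (μ := μ) 0 (T := 0) (fun x hx => Submodule.zero_mem _)
  rwa [zero_smul, zero_mul] at h

lemma tr_eq_zero {μ : Fin n →₀ ℕ} {T : R →ₗ[ℂ] R} (h : ∀ x ∈ G.M μ, T x = 0) :
    G.tr μ T = 0 := by
  rw [G.tr_congr (S := 0) (fun x hx => by rw [h x hx]; rfl), tr_zero]

lemma tr_sum {μ : Fin n →₀ ℕ} {ι : Type*} (s : Finset ι) (T : ι → (R →ₗ[ℂ] R))
    (hT : ∀ i ∈ s, ∀ x ∈ G.M μ, T i x ∈ G.M μ) :
    G.tr μ (∑ i ∈ s, T i) = ∑ i ∈ s, G.tr μ (T i) := by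
  classical
  induction s using Finset.induction_on with
  | empty => rw [Finset.sum_empty, Finset.sum_empty, tr_zero]
  | insert a s ha ih =>
    rw [Finset.sum_insert ha, Finset.sum_insert ha, G.tr_add (hT a (Finset.mem_insert_self a s)),
      ih (fun i hi => hT i (Finset.mem_insert_of_mem hi))]
    intro x hx
    rw [LinearMap.sum_apply]
    exact Submodule.sum_mem _ (fun i hi => hT i (Finset.mem_insert_of_mem hi) x hx)

lemma tr_deg {μ : Fin n →₀ ℕ} (T : R →ₗ[ℂ] R) (h : ∑ i, μ i ≠ G.d) : G.tr μ T = 0 := by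
  apply tr_eq_zero
  intro x hx
  by_contra hne
  by_cases hx0 : x = 0
  · rw [hx0, map_zero] at hne
    exact hne rfl
  · exact h (G.deg μ x hx hx0)

/-- The trace of `Z E_ji E_ij`. -/
noncomputable def tt (Z : R →ₗ[ℂ] R) (i j : Fin n) (μ : Fin n →₀ ℕ) : ℂ :=
  G.tr μ (Z ∘ₗ G.E j i ∘ₗ G.E i j)

lemma tt_vanish (Z : R →ₗ[ℂ] R) {i j : Fin n} (hij : i ≠ j) {μ : Fin n →₀ ℕ} (h : μ j = 0) :
    G.tt Z i j μ = 0 := by
  apply tr_eq_zero
  intro x hx
  rw [LinearMap.comp_apply, LinearMap.comp_apply, G.vanish μ i j hij h x hx, map_zero, map_zero]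

/-- cyclicity -/
lemma tt_cyc {Z : R →ₗ[ℂ] R} (hZ : G.Cen Z) {i j : Fin n} (hij : i ≠ j) (ν : Fin n →₀ ℕ) :
    G.tt Z i j (ν + Finsupp.single j 1) = G.tt Z j i (ν + Finsupp.single i 1) := by
  have hf := G.fin
  have hA : ∀ x ∈ G.M (ν + Finsupp.single j 1), G.E i j x ∈ G.M (ν + Finsupp.single i 1) :=
    G.raise ν i j hij
  have hB : ∀ x ∈ G.M (ν + Finsupp.single i 1), (Z ∘ₗ G.E j i) x ∈
      G.M (ν + Finsupp.single j 1) :=
    fun x hx => hZ.m _ _ (G.raise ν j i hij.symm x hx)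
  have h1 : ∀ x ∈ G.M (ν + Finsupp.single j 1), (Z ∘ₗ G.E j i ∘ₗ G.E i j) x ∈
      G.M (ν + Finsupp.single j 1) := fun x hx => hB _ (hA x hx)
  have h2 : ∀ x ∈ G.M (ν + Finsupp.single i 1), (Z ∘ₗ G.E i j ∘ₗ G.E j i) x ∈
      G.M (ν + Finsupp.single i 1) := fun x hx =>
    hZ.m _ _ (G.EE_mem hij.symm hx)
  rw [tt, tt, G.tr_eq h1, G.tr_eq h2]
  have h3 := LinearMap.trace_comp_comm' ((G.E i j).restrict hA)
    ((Z ∘ₗ G.E j i).restrict hB)
  have h4 : ((Z ∘ₗ G.E j i).restrict hB) ∘ₗ ((G.E i j).restrict hA) =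
      (Z ∘ₗ G.E j i ∘ₗ G.E i j).restrict h1 := by
    ext x
    rfl
  have h5 : ((G.E i j).restrict hA) ∘ₗ ((Z ∘ₗ G.E j i).restrict hB) =
      (Z ∘ₗ G.E i j ∘ₗ G.E j i).restrict h2 := by
    ext x
    exact (hZ.c i j _).symm
  rw [h4, h5] at h3
  exact h3

/-- the commutator -/
lemma tt_sub {Z : R →ₗ[ℂ] R} (hZ : G.Cen Z) {i j : Fin n} (hij : i ≠ j) (μ : Fin n →₀ ℕ) :
    G.tt Z j i μ - G.tt Z i j μ = ((μ i : ℂ) - μ j) * G.tr μ Z := by
  have h1 : G.tt Z j i μ = G.tr μ (Z ∘ₗ G.E j i ∘ₗ G.E i j + ((μ i : ℂ) - μ j) • Z) := by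
    apply G.tr_congr
    intro x hx
    rw [LinearMap.add_apply, LinearMap.smul_apply, LinearMap.comp_apply, LinearMap.comp_apply,
      LinearMap.comp_apply, LinearMap.comp_apply, G.comm i j j i x, if_pos rfl, if_pos rfl,
      G.diag μ i x hx, G.diag μ j x hx, map_sub, map_add, map_smul, map_smul, sub_smul]
    abel
  rw [h1, G.tr_add, G.tr_smul _ (hZ.m μ), ← tt]
  · ring
  · intro x hx
    exact hZ.m _ _ (G.EE_mem hij hx)
  · intro x hx
    exact Submodule.smul_mem _ _ (hZ.m μ x hx)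

/-- trace of `Z Om` -/
lemma tr_Om {Z : R →ₗ[ℂ] R} (hZ : G.Cen Z) (μ : Fin n →₀ ℕ) :
    G.tr μ (Z ∘ₗ G.Om) = ∑ i, (μ i : ℂ) ^ 2 * G.tr μ Z +
      ∑ i, ∑ j, if i = j then 0 else G.tt Z i j μ := by
  classical
  have h1 : G.tr μ (Z ∘ₗ G.Om) = G.tr μ (∑ i, ∑ j, Z ∘ₗ G.E j i ∘ₗ G.E i j) := by
    apply G.tr_congr
    intro x _
    simp only [LinearMap.comp_apply, Om_apply, map_sum, LinearMap.sum_apply]
  have hm : ∀ i j, ∀ x ∈ G.M μ, (Z ∘ₗ G.E j i ∘ₗ G.E i j) x ∈ G.M μ := by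
    intro i j x hx
    apply hZ.m
    by_cases h : i = j
    · subst h
      exact G.E_diag_mem i (G.E_diag_mem i hx)
    · exact G.EE_mem h hx
  rw [h1, G.tr_sum _ _ (fun i _ x hx => by
    rw [LinearMap.sum_apply]
    exact Submodule.sum_mem _ (fun j _ => hm i j x hx)), ← Finset.sum_add_distrib]
  apply Finset.sum_congr rfl
  intro i _
  rw [G.tr_sum _ _ (fun j _ => hm i j)]
  have h2 : ∀ j, G.tr μ (Z ∘ₗ G.E j i ∘ₗ G.E i j) =
      (if i = j then (μ i : ℂ) ^ 2 * G.tr μ Z else 0) + if i = j then 0 else G.tt Z i j μ := by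
    intro j
    by_cases h : i = j
    · subst h
      rw [if_pos rfl, if_pos rfl, add_zero, ← G.tr_smul _ (hZ.m μ)]
      apply G.tr_congr
      intro x hx
      rw [LinearMap.comp_apply, LinearMap.comp_apply, G.diag μ i x hx, map_smul,
        G.diag μ i x hx, smul_smul, map_smul, LinearMap.smul_apply]
      congr 1
      ring
    · rw [if_neg h, if_neg h, zero_add, tt]
  rw [Finset.sum_congr rfl (fun j _ => h2 j), Finset.sum_add_distrib, Finset.sum_ite_eq,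
    if_pos (Finset.mem_univ _)]

/-! ### Generating functions -/

/-- The generating function of a function of the weights. -/
noncomputable def gen (d : ℕ) (c : (Fin n →₀ ℕ) → ℂ) : MvPolynomial (Fin n) ℂ :=
  ∑ μ ∈ (Finset.univ : Finset (Fin n)).finsuppAntidiag d, monomial μ (c μ)

lemma coeff_gen {d : ℕ} {c : (Fin n →₀ ℕ) → ℂ} (hc : ∀ μ, ∑ i, μ i ≠ d → c μ = 0)
    (m : Fin n →₀ ℕ) : coeff m (gen d c) = c m := by
  classical
  rw [gen, coeff_sum]
  simp only [coeff_monomial]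
  rw [Finset.sum_ite_eq']
  split_ifs with h
  · rfl
  · symm
    apply hc
    intro h1
    apply h
    rw [Finset.mem_finsuppAntidiag]
    exact ⟨h1, Finset.subset_univ _⟩

/-- The character of `Z`. -/
noncomputable def chi (Z : R →ₗ[ℂ] R) : MvPolynomial (Fin n) ℂ := gen G.d (fun μ => G.tr μ Z)

lemma coeff_chi (Z : R →ₗ[ℂ] R) (m : Fin n →₀ ℕ) : coeff m (G.chi Z) = G.tr m Z :=
  coeff_gen (fun _ h => G.tr_deg Z h) m

open Classical in
/-- The generating functions of the traces `tt`. -/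
noncomputable def TT (Z : R →ₗ[ℂ] R) (i j : Fin n) : MvPolynomial (Fin n) ℂ :=
  gen G.d (fun μ => if i = j then 0 else G.tt Z i j μ)

lemma coeff_TT (Z : R →ₗ[ℂ] R) (i j : Fin n) (m : Fin n →₀ ℕ) :
    coeff m (G.TT Z i j) = if i = j then 0 else G.tt Z i j m := by
  classical
  have hc : ∀ μ : Fin n →₀ ℕ, ∑ i, μ i ≠ G.d → (if i = j then 0 else G.tt Z i j μ) = 0 := by
    intro μ h
    split_ifs
    · rfl
    · exact G.tr_deg _ h
  have h1 := coeff_gen hc m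
  rw [TT]
  convert h1

lemma TT_rel {Z : R →ₗ[ℂ] R} (hZ : G.Cen Z) (i j : Fin n) (hij : i ≠ j) :
    (X i - X j) * G.TT Z i j = X j * (eul i (G.chi Z) - eul j (G.chi Z)) := by
  classical
  ext m
  rw [sub_mul, coeff_sub, coeff_X_mul', coeff_X_mul', coeff_X_mul', coeff_sub, coeff_eul,
    coeff_eul, coeff_chi, coeff_TT, coeff_TT, if_neg hij, if_neg hij]
  simp only [Finsupp.mem_support_iff]
  by_cases hj : m j = 0
  · simp only [hj, ne_eq, not_true_eq_false, if_false, sub_zero]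
    split_ifs with hi
    · rfl
    · apply G.tt_vanish Z hij
      rw [Finsupp.tsub_apply, hj, Nat.zero_sub]
  · rw [if_pos hj, if_pos hj, ← sub_mul, ← G.tt_sub hZ hij]
    congr 1
    by_cases hi : m i = 0
    · rw [if_neg (not_not.2 hi)]
      symm
      apply G.tt_vanish Z hij.symm
      rw [Finsupp.tsub_apply, hi, Nat.zero_sub]
    · rw [if_pos hi]
      have h1 : 1 ≤ (m - Finsupp.single j 1 : Fin n →₀ ℕ) i := by
        rw [Finsupp.tsub_apply, Finsupp.single_eq_of_ne hij]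
        omega
      have h2 : 1 ≤ (m - Finsupp.single i 1 : Fin n →₀ ℕ) j := by
        rw [Finsupp.tsub_apply, Finsupp.single_eq_of_ne hij.symm]
        omega
      have h3 : m - Finsupp.single i 1 - Finsupp.single j 1 =
          m - Finsupp.single j 1 - Finsupp.single i 1 := tsub_right_comm
      have h4 := G.tt_cyc hZ hij (m - Finsupp.single i 1 - Finsupp.single j 1)
      rw [single_add_cancel h2, h3, single_add_cancel h1] at h4
      exact h4

/-- The antisymmetrised character. -/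
noncomputable def Av (Z : R →ₗ[ℂ] R) (m : Fin n →₀ ℕ) : ℂ := coeff m (VM n ℂ * G.chi Z)

/-- The scalar of the Casimir operator. -/
noncomputable def sc (m : Fin n →₀ ℕ) : ℂ := ∑ i, (m i : ℂ) ^ 2 - dd n - ((n : ℂ) - 1) * G.d

theorem Av_Om {Z : R →ₗ[ℂ] R} (hZ : G.Cen Z) (m : Fin n →₀ ℕ) :
    G.Av (Z ∘ₗ G.Om) m = G.sc m * G.Av Z m := by
  classical
  apply key_coeff (G.chi Z) (G.chi (Z ∘ₗ G.Om)) G.d ?_ (G.TT Z) (fun i j hij => G.TT_rel hZ i j hij)
  · intro i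
    ext m
    rw [coeff_TT, if_pos rfl, coeff_zero]
  · ext m
    rw [coeff_chi, G.tr_Om hZ, coeff_add, coeff_sum, coeff_sum]
    congr 1
    · apply Finset.sum_congr rfl
      intro i _
      rw [coeff_eul, coeff_eul, coeff_chi]
      ring
    · apply Finset.sum_congr rfl
      intro i _
      rw [coeff_sum]
      apply Finset.sum_congr rfl
      intro j _
      rw [coeff_TT]
  · intro m hm
    by_contra h
    rw [coeff_chi] at hm
    exact hm (G.tr_deg Z h)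

/-- The antisymmetrised character as a sum over permutations. -/
theorem Av_eq (Z : R →ₗ[ℂ] R) (m : Fin n →₀ ℕ) :
    G.Av Z m = ∑ σ : Equiv.Perm (Fin n), (((Equiv.Perm.sign σ : ℤˣ) : ℤ) : ℂ) *
      (if ex σ ≤ m then G.tr (m - ex σ) Z else 0) := by
  classical
  rw [Av, VM, Finset.sum_mul, coeff_sum]
  apply Finset.sum_congr rfl
  intro σ _
  rw [coeff_monomial_mul']
  split_ifs with h
  · rw [coeff_chi]
  · rw [mul_zero]

end GLMod

end Vale.Agent.P181.H177
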