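import Vale.Agent.P181.H177.GLMod

set_option autoImplicit false

/-!
# P181 (helper177): polynomials in the Casimir operator, highest weight vectors
-/

namespace Vale.Agent.P181.H177

open MvPolynomial

namespace GLMod

variable {n : ℕ} {R : Type*} [AddCommGroup R] [Module ℂ R] (G : GLMod n R)

/-- A polynomial in the Casimir operator. -/
noncomputable def pO (f : Polynomial ℂ) : R →ₗ[ℂ] R := Polynomial.aeval G.Om f

lemma pO_add (f g : Polynomial ℂ) : G.pO (f + g) = G.pO f + G.pO g := map_add _ _ _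

lemma pO_C (c : ℂ) : G.pO (Polynomial.C c) = c • LinearMap.id := by
  rw [pO, Polynomial.aeval_C]
  rfl

lemma pO_mul (f g : Polynomial ℂ) : G.pO (f * g) = G.pO f ∘ₗ G.pO g := by
  rw [pO, map_mul]
  rfl

lemma pO_mul_apply (f g : Polynomial ℂ) (x : R) : G.pO (f * g) x = G.pO f (G.pO g x) := by
  rw [pO_mul]
  rfl

lemma pO_mul_X (f : Polynomial ℂ) : G.pO (f * Polynomial.X) = G.pO f ∘ₗ G.Om := by
  rw [pO_mul]
  congr 1
  rw [pO, Polynomial.aeval_X]

lemma cen_pO (f : Polynomial ℂ) : G.Cen (G.pO f) := by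
  induction f using Polynomial.induction_on with
  | C a => rw [pO_C]; exact G.cen_smul a G.cen_id
  | add p q hp hq => rw [pO_add]; exact G.cen_add hp hq
  | monomial k a h =>
    rw [pow_succ, ← mul_assoc, pO_mul_X]
    exact G.cen_comp_Om h

lemma Av_add {Z Z' : R →ₗ[ℂ] R} (h : G.Cen Z) (h' : G.Cen Z') (m : Fin n →₀ ℕ) :
    G.Av (Z + Z') m = G.Av Z m + G.Av Z' m := by
  rw [Av_eq, Av_eq, Av_eq, ← Finset.sum_add_distrib]
  apply Finset.sum_congr rfl
  intro σ _
  rw [← mul_add]
  congr 1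
  split_ifs
  · exact G.tr_add (h.m _) (h'.m _)
  · rw [add_zero]

lemma Av_smul (c : ℂ) {Z : R →ₗ[ℂ] R} (h : G.Cen Z) (m : Fin n →₀ ℕ) :
    G.Av (c • Z) m = c * G.Av Z m := by
  rw [Av_eq, Av_eq, Finset.mul_sum]
  apply Finset.sum_congr rfl
  intro σ _
  split_ifs
  · rw [G.tr_smul _ (h.m _)]
    ring
  · ring

/-- The antisymmetrised character of a polynomial in the Casimir operator. -/
theorem Av_pO (f : Polynomial ℂ) (m : Fin n →₀ ℕ) :
    G.Av (G.pO f) m = f.eval (G.sc m) * G.Av LinearMap.id m := by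
  induction f using Polynomial.induction_on with
  | C a => rw [pO_C, G.Av_smul a G.cen_id, Polynomial.eval_C]
  | add p q hp hq =>
    rw [pO_add, G.Av_add (G.cen_pO p) (G.cen_pO q), hp, hq, Polynomial.eval_add, add_mul]
  | monomial k a h =>
    rw [pow_succ, ← mul_assoc, pO_mul_X, G.Av_Om (G.cen_pO _), h, Polynomial.eval_mul_X]
    ring

/-! ### Highest weight vectors -/

/-- The value of the Casimir operator at a highest weight. -/
def cz (μ : Fin n →₀ ℕ) : ℤ := ∑ i, ((μ i : ℤ) ^ 2 + (μ i : ℤ) * ((n : ℤ) - 1 - 2 * (i : ℕ)))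

lemma Om_hw {μ : Fin n →₀ ℕ} {x : R} (hx : x ∈ G.M μ) (hE : ∀ i j, i < j → G.E i j x = 0) :
    G.Om x = ((cz μ : ℤ) : ℂ) • x := by
  classical
  rw [Om_apply]
  have h1 : ∀ i j, G.E j i (G.E i j x) = (if i = j then (μ i : ℂ) ^ 2 • x else 0) +
      if j < i then ((μ j : ℂ) - μ i) • x else 0 := by
    intro i j
    rcases lt_trichotomy i j with h | h | h
    · rw [hE i j h, map_zero, if_neg h.ne, if_neg (lt_asymm h), add_zero]
    · subst h
      rw [if_pos rfl, if_neg (lt_irrefl _), add_zero, G.diag μ i x hx, map_smul, G.diag μ i x hx,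
        smul_smul, sq]
    · rw [if_neg h.ne', if_pos h, G.comm j i i j x, if_pos rfl, if_pos rfl, hE j i h, map_zero,
        zero_add, zero_add, G.diag μ j x hx, G.diag μ i x hx, sub_smul]
  rw [Finset.sum_congr rfl (fun i _ => Finset.sum_congr rfl (fun j _ => h1 i j))]
  simp only [Finset.sum_add_distrib, Finset.sum_ite_eq, Finset.mem_univ, if_true]
  have h2 : ∑ i : Fin n, ∑ j : Fin n, (if j < i then ((μ j : ℂ) - μ i) • x else 0) =
      (∑ i : Fin n, ∑ j : Fin n, (if j < i then ((μ j : ℂ) - μ i) else 0)) • x := by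
    rw [Finset.sum_smul]
    apply Finset.sum_congr rfl
    intro i _
    rw [Finset.sum_smul]
    apply Finset.sum_congr rfl
    intro j _
    split_ifs
    · rfl
    · rw [zero_smul]
  have h3 : ∑ i : Fin n, ∑ j : Fin n, (if j < i then ((μ j : ℂ) - μ i) else 0) =
      ∑ i : Fin n, (μ i : ℂ) * ((n : ℂ) - 1 - 2 * (i : ℕ)) := by
    have h4 : ∀ i j : Fin n, (if j < i then ((μ j : ℂ) - μ i) else 0) =
        (if j < i then (μ j : ℂ) else 0) - (if j < i then (μ i : ℂ) else 0) := by
      intro i j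
      split_ifs
      · rfl
      · rw [sub_zero]
    rw [Finset.sum_congr rfl (fun i _ => Finset.sum_congr rfl (fun j _ => h4 i j))]
    simp only [Finset.sum_sub_distrib]
    rw [Finset.sum_comm]
    rw [← Finset.sum_sub_distrib]
    apply Finset.sum_congr rfl
    intro i _
    rw [← Finset.sum_filter, ← Finset.sum_filter, Finset.sum_const, Finset.sum_const,
      nsmul_eq_mul, nsmul_eq_mul]
    have h5 : (Finset.univ.filter (fun j : Fin n => i < j)).card = n - 1 - (i : ℕ) := by
      rw [Finset.filter_lt_eq_Ioi, Fin.card_Ioi]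
    have h6 : (Finset.univ.filter (fun j : Fin n => j < i)).card = (i : ℕ) := by
      rw [Finset.filter_gt_eq_Iio, Fin.card_Iio]
    rw [h5, h6]
    have h7 : (i : ℕ) + 1 ≤ n := i.2
    have h8 : ((n - 1 - (i : ℕ) : ℕ) : ℂ) = (n : ℂ) - 1 - (i : ℕ) := by
      have h9 : n = (n - 1 - (i : ℕ)) + 1 + i := by omega
      have h10 : (n : ℂ) = ((n - 1 - (i : ℕ) : ℕ) : ℂ) + 1 + (i : ℕ) := by
        exact_mod_cast h9
      rw [h10]
      ring
    rw [h8]
    ring
  rw [h2, h3, ← Finset.sum_smul, ← add_smul, ← Finset.sum_add_distrib]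
  congr 1
  rw [cz]
  push_cast
  rfl

lemma pO_hw {μ : Fin n →₀ ℕ} {x : R} (hx : x ∈ G.M μ) (hE : ∀ i j, i < j → G.E i j x = 0)
    (f : Polynomial ℂ) : G.pO f x = f.eval ((cz μ : ℤ) : ℂ) • x := by
  induction f using Polynomial.induction_on with
  | C a => rw [pO_C, Polynomial.eval_C]; rfl
  | add p q hp hq => rw [pO_add, LinearMap.add_apply, hp, hq, Polynomial.eval_add, add_smul]
  | monomial k a h =>
    rw [pow_succ, ← mul_assoc, pO_mul_X, LinearMap.comp_apply, G.Om_hw hx hE, map_smul, h,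
      smul_smul, Polynomial.eval_mul_X, mul_comm]

/-- powers of a lowering operator -/
lemma low_mem {i j : Fin n} (hij : i ≠ j) (k : ℕ) : ∀ (ν : Fin n →₀ ℕ) (x : R),
    x ∈ G.M (ν + Finsupp.single i k) →
      ((G.E j i) ^ k) x ∈ G.M (ν + Finsupp.single j k) := by
  induction k with
  | zero =>
    intro ν x hx
    rw [Finsupp.single_zero, add_zero] at hx ⊢
    exact hx
  | succ k ih =>
    intro ν x hx
    rw [Finsupp.single_add, add_comm (Finsupp.single i k), ← add_assoc] at hx
    have h1 := ih _ x hx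
    rw [add_right_comm] at h1
    have h2 := G.raise _ j i hij.symm _ h1
    rw [pow_succ', Finsupp.single_add, ← add_assoc]
    exact h2

lemma low_comm_H {i j : Fin n} (hij : i ≠ j) {μ : Fin n →₀ ℕ} {x : R} (hx : x ∈ G.M μ) (k : ℕ) :
    G.E i i (((G.E j i) ^ k) x) - G.E j j (((G.E j i) ^ k) x) =
      ((μ i : ℂ) - μ j - 2 * k) • ((G.E j i) ^ k) x := by
  induction k with
  | zero =>
    rw [pow_zero]
    change G.E i i x - G.E j j x = _ • x
    rw [G.diag μ i x hx, G.diag μ j x hx, ← sub_smul]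
    congr 1
    push_cast
    ring
  | succ k ih =>
    rw [pow_succ']
    change G.E i i (G.E j i (((G.E j i) ^ k) x)) - G.E j j (G.E j i (((G.E j i) ^ k) x)) =
      _ • (G.E j i (((G.E j i) ^ k) x))
    rw [G.comm i i j i, G.comm j j j i, if_neg hij, if_pos rfl, if_pos rfl, if_neg hij]
    have h1 : G.E j i (G.E i i (((G.E j i) ^ k) x)) - G.E j i (G.E j j (((G.E j i) ^ k) x)) =
        ((μ i : ℂ) - μ j - 2 * k) • G.E j i (((G.E j i) ^ k) x) := by
      rw [← map_sub, ih, map_smul]
    have h2 : G.E j i (G.E i i (((G.E j i) ^ k) x)) = G.E j i (G.E j j (((G.E j i) ^ k) x)) +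
        ((μ i : ℂ) - μ j - 2 * k) • G.E j i (((G.E j i) ^ k) x) := by
      rw [← h1]; abel
    rw [h2]
    push_cast
    module

lemma low_comm_E {i j : Fin n} (hij : i ≠ j) {μ : Fin n →₀ ℕ} {x : R} (hx : x ∈ G.M μ)
    (h0 : G.E i j x = 0) (k : ℕ) :
    G.E i j (((G.E j i) ^ (k + 1)) x) =
      (((k : ℂ) + 1) * ((μ i : ℂ) - μ j - k)) • ((G.E j i) ^ k) x := by
  have step : ∀ y, G.E i j (G.E j i y) = G.E j i (G.E i j y) + (G.E i i y - G.E j j y) := by
    intro y
    rw [G.comm i j j i y, if_pos rfl, if_pos rfl]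
    abel
  induction k with
  | zero =>
    rw [zero_add, pow_one, pow_zero]
    have h1 := G.low_comm_H hij hx 0
    rw [pow_zero] at h1
    change G.E i i x - G.E j j x = _ • x at h1
    rw [step, h0, map_zero, zero_add, h1]
    change _ = _ • x
    congr 1
    push_cast
    ring
  | succ k ih =>
    have h1 := G.low_comm_H hij hx (k + 1)
    rw [pow_succ']
    change G.E i j (G.E j i (((G.E j i) ^ (k + 1)) x)) = _
    rw [step, ih, h1, map_smul]
    have h2 : G.E j i (((G.E j i) ^ k) x) = ((G.E j i) ^ (k + 1)) x := by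
      rw [pow_succ']
      rfl
    rw [h2]
    push_cast
    module

/-- A highest weight vector of a weight which is not dominant vanishes. -/
lemma hw_zero {i j : Fin n} (hij : i ≠ j) {μ : Fin n →₀ ℕ} (hμ : μ i < μ j) {x : R}
    (hx : x ∈ G.M μ) (h0 : G.E i j x = 0) : x = 0 := by
  by_contra hne
  have hK : ((G.E j i) ^ (μ i + 1)) x = 0 := by
    have h1 : μ - Finsupp.single i (μ i) + Finsupp.single i (μ i) = μ := by
      apply tsub_add_cancel_of_le
      rw [Finsupp.single_le_iff]
    have h2 := G.low_mem hij (μ i) (μ - Finsupp.single i (μ i)) x (by rw [h1]; exact hx)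
    rw [pow_succ']
    apply G.vanish _ j i hij.symm _ _ h2
    rw [Finsupp.add_apply, Finsupp.tsub_apply, Finsupp.single_eq_same,
      Finsupp.single_eq_of_ne hij]
    omega
  have key : ∀ k, k ≤ μ i + 1 → ((G.E j i) ^ k) x ≠ 0 := by
    intro k
    induction k with
    | zero => intro _; exact hne
    | succ k ih =>
      intro hk h1
      have h2 := G.low_comm_E hij hx h0 k
      rw [h1, map_zero] at h2
      have h3 := ih (by omega)
      rcases smul_eq_zero.1 h2.symm with h4 | h4
      · rcases mul_eq_zero.1 h4 with h5 | h5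
        · have : ((k + 1 : ℕ) : ℂ) = 0 := by push_cast; exact h5
          exact absurd this (Nat.cast_ne_zero.2 (Nat.succ_ne_zero k))
        · have h6 : ((μ i : ℕ) : ℂ) = ((μ j + k : ℕ) : ℂ) := by
            push_cast
            linear_combination h5
          have h7 := Nat.cast_injective h6
          omega
      · exact h3 h4
  exact key _ le_rfl hK

end GLMod

end Vale.Agent.P181.H177
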