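import Mathlib.RingTheory.PiTensorProduct
import Mathlib.Algebra.MvPolynomial.Rename
import Mathlib.Algebra.Polynomial.Roots
import Vale.Agent.P181.R2.H780.Chain

set_option autoImplicit false

/-! The analytic layer of the two canonical certificates: a symmetric multilinear form that
vanishes on the diagonal at products of linear forms gives an additive functional on polynomials
in the coordinates of `a` points that kills all products of elementary multisymmetric
functions. -/

open Finset PiTensorProduct
open scoped TensorProduct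

namespace Vale.Agent.P181.H177

section Tab

variable {S : Type*} [CommRing S]

/-- Adding one point to a table of elementary multisymmetric functions. -/
def addRow (X Y Z : S) (W : ℕ → ℕ → S) : ℕ → ℕ → S := fun b g =>
  X * W b g + (if b = 0 then 0 else Y * W (b - 1) g) + (if g = 0 then 0 else Z * W b (g - 1))

/-- The table without points. -/
def tab0 : ℕ → ℕ → S := fun b g => if b = 0 ∧ g = 0 then 1 else 0

/-- The table of the elementary multisymmetric functions of `a` points: `tab a u b g` is the
coefficient of `β ^ b * γ ^ g` in the product of the `u r 0 + β * u r 1 + γ * u r 2`. -/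
def tab : (a : ℕ) → (Fin a → Fin 3 → S) → ℕ → ℕ → S
  | 0, _ => tab0
  | a + 1, u => addRow (u 0 0) (u 0 1) (u 0 2) (tab a (fun r => u r.succ))

theorem tab_eq_zero (a : ℕ) (u : Fin a → Fin 3 → S) (b g : ℕ) (h : a < b + g) :
    tab a u b g = 0 := by
  induction a generalizing b g with
  | zero =>
    have h1 : ¬ (b = 0 ∧ g = 0) := by omega
    simp only [tab, tab0, if_neg h1]
  | succ a ih =>
    simp only [tab, addRow]
    rw [ih _ b g (by omega), mul_zero, zero_add]
    have h1 : (if b = 0 then (0 : S) else u 0 1 * tab a (fun r => u r.succ) (b - 1) g) = 0 := by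
      split_ifs with hb
      · rfl
      · rw [ih _ (b - 1) g (by omega), mul_zero]
    have h2 : (if g = 0 then (0 : S) else u 0 2 * tab a (fun r => u r.succ) b (g - 1)) = 0 := by
      split_ifs with hg
      · rfl
      · rw [ih _ b (g - 1) (by omega), mul_zero]
    rw [h1, h2, add_zero]

theorem tab_map {T : Type*} [CommRing T] (f : S →+* T) (a : ℕ) (u : Fin a → Fin 3 → S)
    (b g : ℕ) : f (tab a u b g) = tab a (fun r s => f (u r s)) b g := by
  induction a generalizing b g with
  | zero =>
    simp only [tab, tab0]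
    split_ifs
    · exact map_one f
    · exact map_zero f
  | succ a ih =>
    simp only [tab, addRow, map_add, map_mul, ih]
    congr 1
    · congr 1
      split_ifs
      · exact map_zero f
      · rw [map_mul, ih]
    · split_ifs
      · exact map_zero f
      · rw [map_mul, ih]

/-- The generating polynomial of a table. -/
noncomputable def gen (a : ℕ) (u : Fin a → Fin 3 → S) : Polynomial (Polynomial S) :=
  ∏ r, (Polynomial.C (Polynomial.C (u r 0)) +
    Polynomial.X * Polynomial.C (Polynomial.C (u r 1)) +
    Polynomial.C (Polynomial.X * Polynomial.C (u r 2)))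

theorem tab_eq_coeff (a : ℕ) (u : Fin a → Fin 3 → S) (b g : ℕ) :
    tab a u b g = ((gen a u).coeff b).coeff g := by
  induction a generalizing b g with
  | zero =>
    simp only [tab, tab0, gen, Finset.univ_eq_empty, Finset.prod_empty]
    rw [Polynomial.coeff_one]
    by_cases hb : b = 0
    · subst hb
      rw [if_pos rfl, Polynomial.coeff_one]
      by_cases hg : g = 0
      · simp [hg]
      · simp [hg]
    · rw [if_neg hb, Polynomial.coeff_zero, if_neg]
      tauto
  | succ a ih =>
    have h1 : gen (a + 1) u = (Polynomial.C (Polynomial.C (u 0 0)) +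
        Polynomial.X * Polynomial.C (Polynomial.C (u 0 1)) +
        Polynomial.C (Polynomial.X * Polynomial.C (u 0 2))) * gen a (fun r => u r.succ) := by
      rw [gen, Fin.prod_univ_succ]
      rfl
    rw [h1]
    simp only [tab, addRow, ih]
    rw [add_mul, add_mul, Polynomial.coeff_add, Polynomial.coeff_add, Polynomial.coeff_add,
      Polynomial.coeff_add, Polynomial.coeff_C_mul, Polynomial.coeff_C_mul,
      Polynomial.coeff_C_mul]
    congr 1
    · congr 1
      rcases b with - | b
      · rw [if_pos rfl, mul_assoc, Polynomial.coeff_X_mul_zero, Polynomial.coeff_zero]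
      · rw [if_neg (Nat.succ_ne_zero b), mul_assoc, Polynomial.coeff_X_mul,
          Polynomial.coeff_C_mul, Polynomial.coeff_C_mul, Nat.add_sub_cancel]
    · rcases g with - | g
      · rw [if_pos rfl, mul_assoc, Polynomial.coeff_X_mul_zero]
      · rw [if_neg (Nat.succ_ne_zero g), mul_assoc, Polynomial.coeff_X_mul,
          Polynomial.coeff_C_mul, Nat.add_sub_cancel]

theorem tab_perm (a : ℕ) (σ : Equiv.Perm (Fin a)) (u : Fin a → Fin 3 → S) (b g : ℕ) :
    tab a (fun r => u (σ r)) b g = tab a u b g := by
  rw [tab_eq_coeff, tab_eq_coeff]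
  have h1 : gen a (fun r => u (σ r)) = gen a u :=
    Equiv.prod_comp σ (fun r => (Polynomial.C (Polynomial.C (u r 0)) +
      Polynomial.X * Polynomial.C (Polynomial.C (u r 1)) +
      Polynomial.C (Polynomial.X * Polynomial.C (u r 2))))
  rw [h1]

/-- The elementary multisymmetric functions are invariant under permutations of the points. -/
theorem rename_tab (a : ℕ) (σ : Equiv.Perm (Fin a)) (b g : ℕ) :
    MvPolynomial.rename (fun p : Fin a × Fin 3 => (σ p.1, p.2))
      (tab a (fun r s => (MvPolynomial.X (r, s) : MvPolynomial (Fin a × Fin 3) S)) b g) =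
    tab a (fun r s => MvPolynomial.X (r, s)) b g := by
  have h1 := tab_map (MvPolynomial.rename (R := S)
    (fun p : Fin a × Fin 3 => (σ p.1, p.2))).toRingHom a
    (fun r s => (MvPolynomial.X (r, s) : MvPolynomial (Fin a × Fin 3) S)) b g
  refine h1.trans ?_
  have h2 : (fun (r : Fin a) (s : Fin 3) => (MvPolynomial.rename (R := S)
      (fun p : Fin a × Fin 3 => (σ p.1, p.2))).toRingHom (MvPolynomial.X (r, s))) =
      fun r => (fun (r : Fin a) (s : Fin 3) =>
        (MvPolynomial.X (r, s) : MvPolynomial (Fin a × Fin 3) S)) (σ r) := by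
    funext r s
    exact MvPolynomial.rename_X _ _
  rw [h2]
  exact tab_perm a σ (fun (r : Fin a) (s : Fin 3) =>
    (MvPolynomial.X (r, s) : MvPolynomial (Fin a × Fin 3) S)) b g

/-- The sum of a table against powers of two scalars. -/
theorem sum_tab (a : ℕ) (u : Fin a → Fin 3 → S) (x y : S) :
    ∑ b ∈ range (a + 1), ∑ g ∈ range (a + 1), x ^ b * y ^ g * tab a u b g =
      ∏ r, (u r 0 + x * u r 1 + y * u r 2) := by
  have hd2 : ∀ b, ((gen a u).coeff b).natDegree < a + 1 := by
    intro b
    rw [Nat.lt_succ_iff, Polynomial.natDegree_le_iff_coeff_eq_zero]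
    intro g hg
    rw [← tab_eq_coeff, tab_eq_zero]
    omega
  have hd1 : (gen a u).natDegree < a + 1 := by
    rw [Nat.lt_succ_iff, Polynomial.natDegree_le_iff_coeff_eq_zero]
    intro b hb
    ext g
    rw [← tab_eq_coeff, tab_eq_zero _ _ _ _ (by omega), Polynomial.coeff_zero]
  have h1 : ((gen a u).eval (Polynomial.C x)).eval y = ∏ r, (u r 0 + x * u r 1 + y * u r 2) := by
    rw [gen, Polynomial.eval_prod, Polynomial.eval_prod]
    refine Finset.prod_congr rfl fun r _ => ?_
    simp only [Polynomial.eval_add, Polynomial.eval_mul, Polynomial.eval_C, Polynomial.eval_X]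
  rw [← h1, Polynomial.eval_eq_sum_range' hd1, Polynomial.eval_finsetSum]
  refine Finset.sum_congr rfl fun b _ => ?_
  rw [Polynomial.eval_mul, Polynomial.eval_pow, Polynomial.eval_C,
    Polynomial.eval_eq_sum_range' (hd2 b), Finset.sum_mul]
  refine Finset.sum_congr rfl fun g _ => ?_
  rw [tab_eq_coeff]
  ring

end Tab

theorem ext1 (m : ℕ) (c : ℕ → ℂ) (h : ∀ β : ℂ, ∑ b ∈ range m, β ^ b * c b = 0) :
    ∀ b < m, c b = 0 := by
  intro b hb
  have h1 : (∑ b ∈ range m, Polynomial.monomial b (c b) : Polynomial ℂ) = 0 := by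
    apply Polynomial.funext
    intro β
    rw [Polynomial.eval_finsetSum, Polynomial.eval_zero, ← h β]
    refine Finset.sum_congr rfl fun b _ => ?_
    rw [Polynomial.eval_monomial, mul_comm]
  have h2 := congrArg (fun p => Polynomial.coeff p b) h1
  simp only [Polynomial.finsetSum_coeff, Polynomial.coeff_monomial, Polynomial.coeff_zero,
    Finset.sum_ite_eq', Finset.mem_range, hb, if_true] at h2
  exact h2

theorem ext2 (m : ℕ) (c : ℕ → ℕ → ℂ)
    (h : ∀ β γ : ℂ, ∑ b ∈ range m, ∑ g ∈ range m, β ^ b * γ ^ g * c b g = 0) :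
    ∀ b < m, ∀ g < m, c b g = 0 := by
  intro b hb
  apply ext1
  intro γ
  revert b
  apply ext1
  intro β
  rw [← h β γ]
  refine Finset.sum_congr rfl fun b _ => ?_
  rw [Finset.mul_sum]
  refine Finset.sum_congr rfl fun g _ => ?_
  ring

variable {A : Type*} [CommRing A] [Algebra ℂ A]

theorem prod_single {a : ℕ} (f : Fin a → A) :
    ∏ r, singleAlgHom (R := ℂ) (A := fun _ : Fin a => A) r (f r) = tprod ℂ f := by
  have h1 : ∏ r, tprodMonoidHom (A := fun _ : Fin a => A) ℂ (Pi.mulSingle r (f r)) =
      tprodMonoidHom ℂ f := by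
    rw [← map_prod, Finset.univ_prod_mulSingle]
  exact h1

theorem lift_tab {L : Submodule ℂ A} {a N : ℕ} (G : MultilinearMap ℂ (fun _ : Fin a => A) ℂ)
    (hK : IsK L N G) (l : Fin 3 → A) (hl : ∀ s, l s ∈ L) (C1 : List (ℕ × ℕ))
    (Bs : List (ℂ × ℂ)) (hN : C1.length + Bs.length = N) :
    lift G ((C1.map (fun c => tab a (fun r s =>
      singleAlgHom (R := ℂ) (A := fun _ : Fin a => A) r (l s)) c.1 c.2)).prod *
      (Bs.map (fun p => tprod ℂ (fun _ : Fin a => l 0 + p.1 • l 1 + p.2 • l 2))).prod) = 0 := by
  induction C1 generalizing Bs with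
  | nil =>
    rw [List.map_nil, List.prod_nil, one_mul]
    have h1 : (Bs.map (fun p => tprod ℂ (fun _ : Fin a => l 0 + p.1 • l 1 + p.2 • l 2))).prod =
        tprod ℂ (fun _ : Fin a => (Bs.map (fun p => l 0 + p.1 • l 1 + p.2 • l 2)).prod) := by
      clear hN
      induction Bs with
      | nil => rfl
      | cons p Bs ih =>
        rw [List.map_cons, List.prod_cons, ih, tprod_mul_tprod]
        rfl
    rw [h1, lift.tprod]
    have h2 := hK (Bs.map (fun p => l 0 + p.1 • l 1 + p.2 • l 2) : Multiset A)
      (by rw [Multiset.coe_card, List.length_map]; simpa using hN)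
      (by
        intro x hx
        rw [Multiset.mem_coe, List.mem_map] at hx
        obtain ⟨p, -, rfl⟩ := hx
        exact L.add_mem (L.add_mem (hl 0) (L.smul_mem _ (hl 1))) (L.smul_mem _ (hl 2)))
    rw [Multiset.prod_coe] at h2
    exact h2
  | cons c C1 ih =>
    obtain ⟨b, g⟩ := c
    rw [List.map_cons, List.prod_cons]
    set PC := (C1.map (fun c => tab a (fun r s =>
      singleAlgHom (R := ℂ) (A := fun _ : Fin a => A) r (l s)) c.1 c.2)).prod with hPC
    set PB := (Bs.map (fun p => tprod ℂ
      (fun _ : Fin a => l 0 + p.1 • l 1 + p.2 • l 2))).prod with hPB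
    set tT : ℕ → ℕ → ⨂[ℂ] _ : Fin a, A := tab a (fun r s =>
      singleAlgHom (R := ℂ) (A := fun _ : Fin a => A) r (l s)) with htT
    change lift G (tT b g * PC * PB) = 0
    by_cases hbg : a < b + g
    · rw [htT, tab_eq_zero _ _ _ _ hbg, zero_mul, zero_mul, map_zero]
    · refine ext2 (a + 1) (fun b g => lift G (tT b g * PC * PB)) ?_ b (by omega) g (by omega)
      intro β γ
      have h3 := ih ((β, γ) :: Bs) (by
        rw [List.length_cons] at hN ⊢
        omega)
      rw [List.map_cons, List.prod_cons, ← hPB] at h3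
      have h4 : tprod ℂ (fun _ : Fin a => l 0 + β • l 1 + γ • l 2) =
          ∑ b ∈ range (a + 1), ∑ g ∈ range (a + 1), (β ^ b * γ ^ g) • tT b g := by
        rw [← prod_single]
        have h5 := sum_tab a (fun r s => singleAlgHom (R := ℂ) (A := fun _ : Fin a => A) r (l s))
          (algebraMap ℂ _ β) (algebraMap ℂ _ γ)
        have h6 : ∀ r : Fin a, singleAlgHom (R := ℂ) (A := fun _ : Fin a => A) r
            (l 0 + β • l 1 + γ • l 2) =
            singleAlgHom (R := ℂ) (A := fun _ : Fin a => A) r (l 0) +
            algebraMap ℂ _ β * singleAlgHom (R := ℂ) (A := fun _ : Fin a => A) r (l 1) +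
            algebraMap ℂ _ γ * singleAlgHom (R := ℂ) (A := fun _ : Fin a => A) r (l 2) := by
          intro r
          rw [map_add, map_add, map_smul, map_smul, Algebra.smul_def, Algebra.smul_def]
        rw [Finset.prod_congr rfl (fun r _ => h6 r), ← h5]
        refine Finset.sum_congr rfl fun b _ => Finset.sum_congr rfl fun g _ => ?_
        rw [Algebra.smul_def, map_mul, map_pow, map_pow]
      rw [h4, Finset.sum_mul, Finset.mul_sum, map_sum] at h3
      rw [← h3]
      refine Finset.sum_congr rfl fun b _ => ?_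
      rw [Finset.sum_mul, Finset.mul_sum, map_sum]
      refine Finset.sum_congr rfl fun g _ => ?_
      rw [smul_mul_assoc, mul_smul_comm, map_smul, smul_eq_mul]
      congr 2
      ring

/-- **The analytic layer.** -/
theorem exists_lam {L : Submodule ℂ A} {a N : ℕ}
    (G : MultilinearMap ℂ (fun _ : Fin a => A) ℂ) (hK : IsK L N G)
    (l : Fin 3 → A) (hl : ∀ s, l s ∈ L) :
    ∃ lam : MvPolynomial (Fin a × Fin 3) ℤ →+ ℂ,
      (∀ e : Fin a → Fin 3 → ℕ, lam (∏ r, ∏ s, MvPolynomial.X (r, s) ^ e r s) =
        G (fun r => ∏ s, l s ^ e r s)) ∧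
      (∀ C : List (ℕ × ℕ), C.length = N →
        lam ((C.map (fun c => tab a (fun r s => MvPolynomial.X (r, s)) c.1 c.2)).prod) = 0) := by
  let φ : MvPolynomial (Fin a × Fin 3) ℤ →+* ⨂[ℂ] _ : Fin a, A :=
    MvPolynomial.eval₂Hom (Int.castRingHom _)
      (fun p => singleAlgHom (R := ℂ) (A := fun _ : Fin a => A) p.1 (l p.2))
  refine ⟨(lift G).toAddMonoidHom.comp φ.toAddMonoidHom, ?_, ?_⟩
  · intro e
    change lift G (φ _) = _
    have h1 : φ (∏ r, ∏ s, MvPolynomial.X (r, s) ^ e r s) =
        tprod ℂ (fun r => ∏ s, l s ^ e r s) := by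
      rw [map_prod, ← prod_single]
      refine Finset.prod_congr rfl fun r _ => ?_
      rw [map_prod, map_prod]
      refine Finset.prod_congr rfl fun s _ => ?_
      rw [map_pow, map_pow]
      congr 1
      exact MvPolynomial.eval₂Hom_X' _ _ _
    rw [h1, lift.tprod]
  · intro C hC
    change lift G (φ _) = _
    have h1 := lift_tab G hK l hl C [] (by simpa using hC)
    rw [List.map_nil, List.prod_nil, mul_one] at h1
    rw [← h1, map_list_prod, List.map_map]
    congr 2
    refine List.map_congr_left fun c _ => ?_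
    change φ (tab a _ c.1 c.2) = _
    rw [tab_map φ]
    congr 1
    funext r s
    exact MvPolynomial.eval₂Hom_X' _ _ _

end Vale.Agent.P181.H177
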