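import Mathlib
import Vale.Agent.P181.H788.Prog

set_option autoImplicit false

/-!
# P181 (helper177): the Pieri form of the contribution of `k = 1`
-/

namespace Vale.Agent.P181.H177

open Vale.Agent.P181.H788

lemma fc_eq (n : ℕ) (k : ℕ → ℕ) : fc n k = k n := by
  cases n <;> rfl

lemma sm_eq (f : ℕ → ℕ) (n : ℕ) : sm f n = ∑ i ∈ Finset.range n, f i := by
  induction n with
  | zero => rfl
  | succ n ih =>
    rw [Finset.sum_range_succ, ← ih]
    rfl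

lemma bt_eq (b : Bool) (t e : ℕ) : bt b t e = if b = true then t else e := by
  cases b <;> rfl

lemma ble_iff (a b : ℕ) : Nat.ble a b = true ↔ a ≤ b := by rw [Nat.ble_eq]

lemma bt_ble (a b t e : ℕ) : bt (Nat.ble a b) t e = if a ≤ b then t else e := by
  rw [bt_eq]
  simp only [ble_iff]

lemma mn_eq (a b : ℕ) : mn a b = min a b := by
  rw [mn, bt_ble, min_def]

lemma sg_eq (K : ℕ) (F : Tb) (x y z : ℕ) : sg K F x y z =
    if y < x then
      (if z < y then F x y z else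
        (if y < z then (if z < x then 2 ^ K - F x z y else (if x < z then F z x y else 0)) else 0))
    else
      (if x < y then
        (if z < x then 2 ^ K - F y x z else
          (if x < z then (if z < y then F y z x else (if y < z then 2 ^ K - F z y x else 0))
            else 0)) else 0) := by
  simp only [sg, bt_ble]
  rfl

section

variable {K : ℕ} {F : Tb}

lemma sg_sorted {x y z : ℕ} (h1 : z < y) (h2 : y < x) : sg K F x y z = F x y z := by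
  rw [sg_eq, if_pos h2, if_pos h1]

lemma cast_sub_two_pow {u : ℕ} (h : u ≤ 2 ^ K) : ((2 ^ K - u : ℕ) : ZMod (2 ^ K)) = - (u : ZMod (2 ^ K)) := by
  rw [Nat.cast_sub h]
  have h1 : ((2 ^ K : ℕ) : ZMod (2 ^ K)) = 0 := ZMod.natCast_self _
  rw [h1, zero_sub]

lemma sg_swap12 (hF : ∀ x y z, z < y → y < x → F x y z ≤ 2 ^ K) (x y z : ℕ) :
    ((sg K F y x z : ℕ) : ZMod (2 ^ K)) = - ((sg K F x y z : ℕ) : ZMod (2 ^ K)) := by
  rw [sg_eq, sg_eq]
  split_ifs <;>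
    first
    | omega
    | simp only [Nat.cast_zero, neg_zero]
    | (rw [cast_sub_two_pow (hF _ _ _ (by omega) (by omega)), neg_neg])
    | (rw [cast_sub_two_pow (hF _ _ _ (by omega) (by omega))])

lemma sg_swap23 (hF : ∀ x y z, z < y → y < x → F x y z ≤ 2 ^ K) (x y z : ℕ) :
    ((sg K F x z y : ℕ) : ZMod (2 ^ K)) = - ((sg K F x y z : ℕ) : ZMod (2 ^ K)) := by
  rw [sg_eq, sg_eq]
  split_ifs <;>
    first
    | omega
    | simp only [Nat.cast_zero, neg_zero]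
    | (rw [cast_sub_two_pow (hF _ _ _ (by omega) (by omega)), neg_neg])
    | (rw [cast_sub_two_pow (hF _ _ _ (by omega) (by omega))])

lemma sg_eq12 (x z : ℕ) : sg K F x x z = 0 := by
  rw [sg_eq]
  split_ifs <;> omega

lemma sg_eq23 (x y : ℕ) : sg K F x y y = 0 := by
  rw [sg_eq]
  split_ifs <;> omega

end

/-- The indices of `ctr`. -/
def TS (d x y z : ℕ) : Finset (Σ _ : ℕ, Σ _ : ℕ, ℕ) :=
  (Finset.range (min x d + 1)).sigma fun a =>
    (Finset.range (min y (d - a) + 1)).sigma fun b => Finset.range (min z (d - a - b) + 1)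

/-- The indices of `pie`. -/
def PS (d x y z : ℕ) : Finset (Σ _ : ℕ, Σ _ : ℕ, ℕ) :=
  (Finset.range (min (x - y) (d + 1))).sigma fun a =>
    (Finset.range (min (y - z) (d - a + 1))).sigma fun b => Finset.range (min z (d - a - b) + 1)

lemma ctr_one (w S K d : ℕ) (F : Tb) (x y z : ℕ) : ctr w S K 1 d F x y z =
    ∑ p ∈ TS d x y z, hv w S K 1 (d - p.1 - p.2.1 - p.2.2) *
      sg K F (x - p.1) (y - p.2.1) (z - p.2.2) := by
  rw [TS, Finset.sum_sigma]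
  simp only [Finset.sum_sigma]
  have hd : ∀ x, Nat.div x 1 = x := fun x => Nat.div_one x
  simp only [ctr, sm_eq, fc_eq, mn_eq, hd]
  simp only [Nat.sub_eq, Nat.mul_eq, one_mul, Nat.succ_eq_add_one]

lemma pie_sum (w S K d : ℕ) (F : Tb) (x y z : ℕ) : pie w S K d F x y z =
    ∑ p ∈ PS d x y z, hv w S K 1 (d - p.1 - p.2.1 - p.2.2) *
      F (x - p.1) (y - p.2.1) (z - p.2.2) := by
  rw [PS, Finset.sum_sigma]
  simp only [Finset.sum_sigma]
  simp only [pie, sm_eq, fc_eq, mn_eq]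
  simp only [Nat.sub_eq, Nat.mul_eq, Nat.succ_eq_add_one]

lemma mem_TS {d x y z a b c : ℕ} : (⟨a, ⟨b, c⟩⟩ : Σ _ : ℕ, Σ _ : ℕ, ℕ) ∈ TS d x y z ↔
    a ≤ x ∧ b ≤ y ∧ c ≤ z ∧ a + b + c ≤ d := by
  simp only [TS, Finset.mem_sigma, Finset.mem_range]
  omega

lemma mem_PS {d x y z a b c : ℕ} : (⟨a, ⟨b, c⟩⟩ : Σ _ : ℕ, Σ _ : ℕ, ℕ) ∈ PS d x y z ↔
    a < x - y ∧ b < y - z ∧ c ≤ z ∧ a + b + c ≤ d := by
  simp only [PS, Finset.mem_sigma, Finset.mem_range]
  omega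

/-- **The contribution of `k = 1` as a sum over horizontal strips.** -/
theorem pie_eq_ctr (w S K d : ℕ) (F : Tb) (hF : ∀ x y z, z < y → y < x → F x y z ≤ 2 ^ K)
    {x y z : ℕ} (hzy : z < y) (hyx : y < x) :
    ((pie w S K d F x y z : ℕ) : ZMod (2 ^ K)) = ((ctr w S K 1 d F x y z : ℕ) : ZMod (2 ^ K)) := by
  classical
  rw [pie_sum, ctr_one, Nat.cast_sum, Nat.cast_sum]
  set f : (Σ _ : ℕ, Σ _ : ℕ, ℕ) → ZMod (2 ^ K) := fun p =>
    ((hv w S K 1 (d - p.1 - p.2.1 - p.2.2) * sg K F (x - p.1) (y - p.2.1) (z - p.2.2) : ℕ) :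
      ZMod (2 ^ K)) with hf
  have h1 : ∑ p ∈ PS d x y z, ((hv w S K 1 (d - p.1 - p.2.1 - p.2.2) *
      F (x - p.1) (y - p.2.1) (z - p.2.2) : ℕ) : ZMod (2 ^ K)) = ∑ p ∈ PS d x y z, f p := by
    apply Finset.sum_congr rfl
    rintro ⟨a, b, c⟩ hp
    rw [mem_PS] at hp
    rw [hf]
    dsimp only
    rw [sg_sorted (by omega) (by omega)]
  rw [h1]
  have hsub : PS d x y z ⊆ TS d x y z := by
    rintro ⟨a, b, c⟩ hp
    rw [mem_PS] at hp
    rw [mem_TS]
    omega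
  have hchg : ∑ p ∈ TS d x y z, f p = ∑ p ∈ TS d x y z,
      ((hv w S K 1 (d - p.1 - p.2.1 - p.2.2) *
        sg K F (x - p.1) (y - p.2.1) (z - p.2.2) : ℕ) : ZMod (2 ^ K)) := rfl
  rw [← hchg, ← Finset.sum_sdiff hsub]
  suffices h0 : ∑ p ∈ TS d x y z \ PS d x y z, f p = 0 by rw [h0, zero_add]
  let g : (Σ _ : ℕ, Σ _ : ℕ, ℕ) → (Σ _ : ℕ, Σ _ : ℕ, ℕ) := fun p =>
    if x - y ≤ p.1 then ⟨x - y + p.2.1, ⟨p.1 - (x - y), p.2.2⟩⟩
    else ⟨p.1, ⟨y - z + p.2.2, p.2.1 - (y - z)⟩⟩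
  have hg1 : ∀ a b c : ℕ, x - y ≤ a → g ⟨a, ⟨b, c⟩⟩ = ⟨x - y + b, ⟨a - (x - y), c⟩⟩ :=
    fun a b c h => if_pos h
  have hg2 : ∀ a b c : ℕ, ¬ x - y ≤ a → g ⟨a, ⟨b, c⟩⟩ = ⟨a, ⟨y - z + c, b - (y - z)⟩⟩ :=
    fun a b c h => if_neg h
  have hmem : ∀ a b c : ℕ, (⟨a, ⟨b, c⟩⟩ : Σ _ : ℕ, Σ _ : ℕ, ℕ) ∈ TS d x y z \ PS d x y z ↔
      (a ≤ x ∧ b ≤ y ∧ c ≤ z ∧ a + b + c ≤ d) ∧ ¬ (a < x - y ∧ b < y - z) := by
    intro a b c
    rw [Finset.mem_sdiff, mem_TS, mem_PS]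
    omega
  have hfg : ∀ a b c : ℕ, (⟨a, ⟨b, c⟩⟩ : Σ _ : ℕ, Σ _ : ℕ, ℕ) ∈ TS d x y z \ PS d x y z →
      f (g ⟨a, ⟨b, c⟩⟩) = - f ⟨a, ⟨b, c⟩⟩ := by
    intro a b c hp
    rw [hmem] at hp
    obtain ⟨⟨ha, hb, hc, hs⟩, hn⟩ := hp
    by_cases h : x - y ≤ a
    · rw [hg1 a b c h, hf]
      dsimp only
      have e1 : d - (x - y + b) - (a - (x - y)) - c = d - a - b - c := by omega
      have e2 : x - (x - y + b) = y - b := by omega
      have e3 : y - (a - (x - y)) = x - a := by omega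
      rw [e1, e2, e3, Nat.cast_mul, Nat.cast_mul, sg_swap12 hF (x - a) (y - b) (z - c), mul_neg]
    · rw [hg2 a b c h, hf]
      dsimp only
      have hb2 : y - z ≤ b := by omega
      have e1 : d - a - (y - z + c) - (b - (y - z)) = d - a - b - c := by omega
      have e2 : y - (y - z + c) = z - c := by omega
      have e3 : z - (b - (y - z)) = y - b := by omega
      rw [e1, e2, e3, Nat.cast_mul, Nat.cast_mul, sg_swap23 hF (x - a) (y - b) (z - c), mul_neg]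
  apply Finset.sum_involution (fun p _ => g p)
  · rintro ⟨a, b, c⟩ hp
    rw [hfg a b c hp, add_neg_cancel]
  · rintro ⟨a, b, c⟩ hp hne heq
    rw [hmem] at hp
    obtain ⟨⟨ha, hb, hc, hs⟩, hn⟩ := hp
    apply hne
    by_cases h : x - y ≤ a
    · rw [hg1 a b c h] at heq
      have h2 : x - y + b = a := by
        have := congrArg Sigma.fst heq
        exact this
      rw [hf]
      dsimp only
      have h3 : x - a = y - b := by omega
      rw [h3, sg_eq12, mul_zero, Nat.cast_zero]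
    · rw [hg2 a b c h] at heq
      have h2 : y - z + c = b := by
        have h4 : (⟨a, ⟨y - z + c, b - (y - z)⟩⟩ : Σ _ : ℕ, Σ _ : ℕ, ℕ).2.1 =
          (⟨a, ⟨b, c⟩⟩ : Σ _ : ℕ, Σ _ : ℕ, ℕ).2.1 := by rw [heq]
        exact h4
      rw [hf]
      dsimp only
      have h3 : y - b = z - c := by omega
      rw [h3, sg_eq23, mul_zero, Nat.cast_zero]
  · rintro ⟨a, b, c⟩ hp
    have hp' := (hmem a b c).1 hp
    obtain ⟨⟨ha, hb, hc, hs⟩, hn⟩ := hp'
    by_cases h : x - y ≤ a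
    · rw [hg1 a b c h, hmem]
      omega
    · rw [hg2 a b c h, hmem]
      omega
  · rintro ⟨a, b, c⟩ hp
    have hp' := (hmem a b c).1 hp
    obtain ⟨⟨ha, hb, hc, hs⟩, hn⟩ := hp'
    by_cases h : x - y ≤ a
    · rw [hg1 a b c h, hg1 _ _ _ (by omega)]
      have e1 : x - y + (a - (x - y)) = a := by omega
      have e2 : x - y + b - (x - y) = b := by omega
      rw [e1, e2]
    · rw [hg2 a b c h, hg2 _ _ _ h]
      have e1 : y - z + (b - (y - z)) = b := by omega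
      have e2 : y - z + c - (y - z) = c := by omega
      rw [e1, e2]

end Vale.Agent.P181.H177
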