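import Vale.Agent.P181.H177.Pie
import Vale.Agent.P181.H605.Prg

set_option autoImplicit false

/-!
# P181 (helper177): the coefficients of the Vandermonde product in six variables, level zero
-/

namespace Vale.Agent.P181.H177

open MvPolynomial Vale.Agent.P181.H788
open Vale.Agent.P181.H605 (fs vdm vdm_eq_sum vdm_homog Sound H G Fgen_zero row_eq_sum
  eq_emod_of_cast ctrZ H_anti ctr_cast)

lemma cnt (c0 c1 c2 c3 c4 c5 : ℕ) (h1 : c0 + c1 + c2 + c3 + c4 + c5 = 6)
    (h2 : c0 + 2 * c1 + 4 * c2 + 8 * c3 + 16 * c4 + 32 * c5 = 63) :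
    c0 = 1 ∧ c1 = 1 ∧ c2 = 1 ∧ c3 = 1 ∧ c4 = 1 ∧ c5 = 1 := by
  have h5 : c5 ≤ 1 := by omega
  have h4 : c4 ≤ 3 := by omega
  have h3 : c3 ≤ 6 := by omega
  interval_cases c5 <;> interval_cases c4 <;> interval_cases c3 <;> omega

lemma pow_sum_inj {v : Fin 6 → ℕ} (h : ∑ i, 2 ^ v i = 63) :
    (∀ i, v i < 6) ∧ Function.Injective v := by
  classical
  have h1 : ∀ i, v i < 6 := by
    intro i
    have h2 : 2 ^ v i ≤ ∑ i, 2 ^ v i := Finset.single_le_sum (f := fun i => 2 ^ v i)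
      (fun _ _ => Nat.zero_le _) (Finset.mem_univ i)
    rw [h] at h2
    by_contra h3
    have h4 : 2 ^ 6 ≤ 2 ^ v i := Nat.pow_le_pow_right (by norm_num) (by omega)
    omega
  refine ⟨h1, ?_⟩
  let c : ℕ → ℕ := fun k => (Finset.univ.filter (fun i => v i = k)).card
  have hc1 : ∑ k ∈ Finset.range 6, c k = 6 := by
    have h2 := Finset.card_eq_sum_card_fiberwise (f := v) (s := (Finset.univ : Finset (Fin 6)))
      (t := Finset.range 6) (fun i _ => Finset.mem_coe.2 (Finset.mem_range.2 (h1 i)))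
    rw [Finset.card_univ, Fintype.card_fin] at h2
    exact h2.symm
  have hc2 : ∑ k ∈ Finset.range 6, c k * 2 ^ k = 63 := by
    rw [← h]
    have h2 := Finset.sum_fiberwise_of_maps_to (s := (Finset.univ : Finset (Fin 6)))
      (t := Finset.range 6) (g := v) (fun i _ => Finset.mem_range.2 (h1 i)) (fun i => 2 ^ v i)
    rw [← h2]
    apply Finset.sum_congr rfl
    intro k _
    rw [Finset.sum_congr rfl (fun i hi => by rw [(Finset.mem_filter.1 hi).2]), Finset.sum_const,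
      smul_eq_mul]
  simp only [Finset.sum_range_succ, Finset.sum_range_zero] at hc1 hc2
  obtain ⟨e0, e1, e2, e3, e4, e5⟩ := cnt (c 0) (c 1) (c 2) (c 3) (c 4) (c 5) (by omega) (by omega)
  intro i j hij
  by_contra hne
  have h2 : 2 ≤ c (v i) := by
    have h3 : ({i, j} : Finset (Fin 6)) ⊆ Finset.univ.filter (fun k => v k = v i) := by
      intro k hk
      rw [Finset.mem_insert, Finset.mem_singleton] at hk
      rw [Finset.mem_filter]
      rcases hk with rfl | rfl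
      · exact ⟨Finset.mem_univ _, rfl⟩
      · exact ⟨Finset.mem_univ _, hij.symm⟩
    have h4 := Finset.card_le_card h3
    rwa [Finset.card_pair hne] at h4
  have h3 := h1 i
  interval_cases h5 : v i <;> omega

/-- `inv6` of the entries of a vector -/
noncomputable def iv6 (v : Fin 6 → ℕ) : ℕ := inv6 (v 0) (v 1) (v 2) (v 3) (v 4) (v 5)

lemma iv_eq (a b : ℕ) : iv a b = if b < a then 1 else 0 := by
  rw [iv, bt_ble]
  rfl

/-- the sign of a permutation and the number of inversions -/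
lemma sign_eq_iv6 (σ : Equiv.Perm (Fin 6)) :
    ((Equiv.Perm.sign σ : ℤˣ) : ℤ) = (-1) ^ iv6 (fun i => 5 - (σ i : ℕ)) := by
  have h1 : ∀ i j : Fin 6, (if σ i < σ j then (1 : ℤˣ) else -1) =
      if i = j then -1 else (-1) ^ iv (5 - (σ j : ℕ)) (5 - (σ i : ℕ)) := by
    intro i j
    have hi := (σ i).2
    have hj := (σ j).2
    rw [iv_eq]
    by_cases hij : i = j
    · subst hij
      rw [if_neg (lt_irrefl _), if_pos rfl]
    · rw [if_neg hij]
      have hne : (σ i : ℕ) ≠ σ j := fun h => hij (σ.injective (Fin.ext h))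
      by_cases h : σ i < σ j
      · rw [if_pos h, if_neg]
        · rfl
        · have h2 : (σ i : ℕ) < σ j := h
          omega
      · rw [if_neg h, if_pos]
        · rfl
        · have h2 : ¬ (σ i : ℕ) < σ j := h
          omega
  rw [Equiv.Perm.sign_eq_prod_prod_Ioi]
  simp only [h1]
  have h2 : ∏ i : Fin 6, ∏ j ∈ Finset.Ioi i, (if i = j then (-1 : ℤˣ) else
      (-1) ^ iv (5 - (σ j : ℕ)) (5 - (σ i : ℕ))) =
      ∏ i : Fin 6, ∏ j : Fin 6, (if i < j then ((-1 : ℤˣ)) ^ iv (5 - (σ j : ℕ)) (5 - (σ i : ℕ))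
        else 1) := by
    apply Finset.prod_congr rfl
    intro i _
    rw [← Finset.prod_filter]
    have h3 : Finset.univ.filter (fun j => i < j) = Finset.Ioi i := by
      ext j
      simp
    rw [h3]
    apply Finset.prod_congr rfl
    intro j hj
    rw [if_neg (ne_of_lt (Finset.mem_Ioi.1 hj))]
  rw [h2]
  simp only [Fin.prod_univ_six]
  norm_num [iv6, inv6, pow_add, Fin.lt_def]

lemma exists_perm_of_pow {v : Fin 6 → ℕ} (h : ∑ i, 2 ^ v i = 63) :
    ∃ σ : Equiv.Perm (Fin 6), (fun i => 5 - (σ i : ℕ)) = v := by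
  obtain ⟨h1, h2⟩ := pow_sum_inj h
  let f : Fin 6 → Fin 6 := fun i => ⟨5 - v i, by omega⟩
  have hf : Function.Injective f := by
    intro i j hij
    have h3 : 5 - v i = 5 - v j := Fin.mk.inj_iff.1 hij
    have h4 := h1 i
    have h5 := h1 j
    exact h2 (by omega)
  refine ⟨Equiv.ofBijective f (Finite.injective_iff_bijective.1 hf), ?_⟩
  funext i
  have h4 := h1 i
  change 5 - (5 - v i) = v i
  omega

lemma sum_of_pow {v : Fin 6 → ℕ} (h : ∑ i, 2 ^ v i = 63) : ∑ i, v i = 15 := by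
  obtain ⟨σ, rfl⟩ := exists_perm_of_pow h
  have h3 : ∀ i : Fin 6, 5 - (σ i : ℕ) = (fun j : Fin 6 => 5 - (j : ℕ)) (σ i) := fun i => rfl
  rw [Finset.sum_congr rfl (fun i _ => h3 i), Equiv.sum_comp σ (fun j : Fin 6 => 5 - (j : ℕ))]
  rfl

/-- **The coefficients of the Vandermonde product in six variables.** -/
theorem coeff_vdm6 (v : Fin 6 → ℕ) : coeff (fs v) (vdm 6) =
    if ∑ i, 2 ^ v i = 63 then (-1 : ℤ) ^ iv6 v else 0 := by
  classical
  rw [vdm_eq_sum, coeff_sum]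
  have h0 : ∀ σ : Equiv.Perm (Fin 6), coeff (fs v)
      (((Equiv.Perm.sign σ : ℤ) : MvPolynomial (Fin 6) ℤ) *
        monomial (fs (fun i => 6 - 1 - (σ i : ℕ))) 1) =
      if (fun i => 5 - (σ i : ℕ)) = v then (-1 : ℤ) ^ iv6 v else 0 := by
    intro σ
    have h1 : ((Equiv.Perm.sign σ : ℤ) : MvPolynomial (Fin 6) ℤ) = C (Equiv.Perm.sign σ : ℤ) := by
      simp
    rw [h1, coeff_C_mul, coeff_monomial]
    by_cases h : (fun i => 5 - (σ i : ℕ)) = v
    · rw [if_pos h, if_pos, mul_one, sign_eq_iv6, h]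
      rw [← h]
    · rw [if_neg h, if_neg, mul_zero]
      intro h2
      apply h
      funext i
      exact DFunLike.congr_fun h2 i
  rw [Finset.sum_congr rfl (fun σ _ => h0 σ)]
  by_cases h : ∑ i, 2 ^ v i = 63
  · rw [if_pos h]
    obtain ⟨σ, hσ⟩ := exists_perm_of_pow h
    rw [Finset.sum_eq_single σ]
    · rw [if_pos hσ]
    · intro τ _ hτ
      rw [if_neg]
      intro h3
      apply hτ
      ext i
      have h4 := congrFun (h3.trans hσ.symm) i
      have h5 := (τ i).2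
      have h6 := (σ i).2
      omega
    · intro h3
      exact absurd (Finset.mem_univ _) h3
  · rw [if_neg h]
    apply Finset.sum_eq_zero
    intro σ _
    rw [if_neg]
    rintro rfl
    apply h
    have h3 : ∀ i : Fin 6, 2 ^ (5 - (σ i : ℕ)) = (fun j : Fin 6 => 2 ^ (5 - (j : ℕ))) (σ i) :=
      fun i => rfl
    rw [Finset.sum_congr rfl (fun i _ => h3 i), Equiv.sum_comp σ (fun j : Fin 6 => 2 ^ (5 - (j : ℕ)))]
    rfl


/-! ### Level zero of the kernel program -/

lemma tm_cast (w S K s f2 f3 : ℕ) : ((tm w S K s f2 f3 : ℕ) : ZMod (2 ^ K)) =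
    (((-1) ^ s * 2 ^ (w * (f2 + S * f3)) : ℤ) : ZMod (2 ^ K)) := by
  have h0 : ((Nat.mod (Nat.pow 2 (Nat.mul w (Nat.add f2 (Nat.mul S f3)))) (Nat.pow 2 K) : ℕ) :
      ZMod (2 ^ K)) = ((2 ^ (w * (f2 + S * f3)) : ℕ) : ZMod (2 ^ K)) := by
    change ((2 ^ (w * (f2 + S * f3)) % 2 ^ K : ℕ) : ZMod (2 ^ K)) = _
    rw [ZMod.natCast_mod]
  have hle : Nat.mod (Nat.pow 2 (Nat.mul w (Nat.add f2 (Nat.mul S f3)))) (Nat.pow 2 K) ≤ 2 ^ K :=
    (Nat.mod_lt _ (by change 0 < 2 ^ K; positivity)).le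
  rw [tm, bt_eq]
  split_ifs with h
  · have h1 : s % 2 = 0 := Nat.eq_of_beq_eq_true h
    rw [h0, (Nat.even_iff.2 h1).neg_one_pow, one_mul]
    push_cast
    rfl
  · have h1 : s % 2 = 1 := by
      have h2 : s % 2 ≠ 0 := fun h3 => h (by
        change Nat.beq (s % 2) 0 = true
        rw [h3]
        rfl)
      omega
    change ((2 ^ K - Nat.mod (Nat.pow 2 (Nat.mul w (Nat.add f2 (Nat.mul S f3)))) (Nat.pow 2 K) : ℕ) :
      ZMod (2 ^ K)) = _
    rw [cast_sub_two_pow hle, h0, (Nat.odd_iff.2 h1).neg_one_pow, neg_one_mul]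
    push_cast
    rfl

/-- the term of level zero -/
noncomputable def t0 (w S x y z e2 e3 : ℕ) : ℤ :=
  (if x + y + z + e2 + e3 ≤ 15 then
    coeff (fs ![15 - (x + y + z + e2 + e3), e2, e3, x, y, z]) (vdm 6) else 0) *
      2 ^ (w * (e2 + S * e3))

lemma pow_sum_vec (a b c x y z : ℕ) : ∑ i, 2 ^ (![a, b, c, x, y, z] : Fin 6 → ℕ) i =
    2 ^ a + 2 ^ b + 2 ^ c + 2 ^ x + 2 ^ y + 2 ^ z := by
  rw [Fin.sum_univ_six]
  rfl

lemma sum_vec (a b c x y z : ℕ) : ∑ i, (![a, b, c, x, y, z] : Fin 6 → ℕ) i =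
    a + b + c + x + y + z := by
  rw [Fin.sum_univ_six]
  rfl

lemma term_cast (w S K x y z e2 e3 : ℕ) :
    ((bt (Nat.beq (2 ^ (15 - (x + y + z + e2 + e3)) + 2 ^ e2 + 2 ^ e3 + 2 ^ x + 2 ^ y + 2 ^ z) 63)
      (tm w S K (inv6 (15 - (x + y + z + e2 + e3)) e2 e3 x y z) e2 e3) 0 : ℕ) : ZMod (2 ^ K)) =
    ((t0 w S x y z e2 e3 : ℤ) : ZMod (2 ^ K)) := by
  rw [bt_eq, t0]
  have hb : ∀ m : ℕ, Nat.beq m 63 = true ↔ m = 63 := fun m =>
    ⟨Nat.eq_of_beq_eq_true, fun h => by rw [h]; rfl⟩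
  by_cases h : 2 ^ (15 - (x + y + z + e2 + e3)) + 2 ^ e2 + 2 ^ e3 + 2 ^ x + 2 ^ y + 2 ^ z = 63
  · rw [if_pos ((hb _).2 h)]
    have h1 := sum_of_pow ((pow_sum_vec _ _ _ _ _ _).trans h)
    rw [sum_vec] at h1
    rw [if_pos (by omega), coeff_vdm6, if_pos ((pow_sum_vec _ _ _ _ _ _).trans h), tm_cast]
    rfl
  · rw [if_neg (fun h' => h ((hb _).1 h')), Nat.cast_zero]
    split_ifs
    · rw [coeff_vdm6, if_neg (fun h' => h ((pow_sum_vec _ _ _ _ _ _).symm.trans h')), zero_mul,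
        Int.cast_zero]
    · rw [zero_mul, Int.cast_zero]

lemma t0_big (w S x y z e2 e3 : ℕ) (h : 6 ≤ e2 ∨ 6 ≤ e3 ∨ 6 ≤ x) : t0 w S x y z e2 e3 = 0 := by
  rw [t0]
  have h0 : (if x + y + z + e2 + e3 ≤ 15 then
    coeff (fs ![15 - (x + y + z + e2 + e3), e2, e3, x, y, z]) (vdm 6) else 0) = 0 := by
    split_ifs
    · rw [coeff_vdm6, if_neg]
      rw [pow_sum_vec]
      have hp : ∀ k, 6 ≤ k → 64 ≤ 2 ^ k := fun k hk =>
        (Nat.pow_le_pow_right (by norm_num) hk : 2 ^ 6 ≤ 2 ^ k)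
      have p1 := Nat.one_le_two_pow (n := 15 - (x + y + z + e2 + e3))
      have p2 := Nat.one_le_two_pow (n := e2)
      have p3 := Nat.one_le_two_pow (n := e3)
      have p4 := Nat.one_le_two_pow (n := x)
      have p5 := Nat.one_le_two_pow (n := y)
      have p6 := Nat.one_le_two_pow (n := z)
      rcases h with h | h | h
      · have := hp _ h
        omega
      · have := hp _ h
        omega
      · have := hp _ h
        omega
    · rfl
  rw [h0, zero_mul]

lemma vdm6_homog : (vdm 6).IsHomogeneous 15 := vdm_homog 6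

/-- **Level zero is sound.** -/
theorem row0_sound (w S K a : ℕ) : Sound w S K 0 a (row0 w S K) := by
  intro x y z _ _
  have hlt : row0 w S K x y z < 2 ^ K := by
    rw [row0, bt_ble]
    split_ifs
    · exact Nat.mod_lt _ (by change 0 < 2 ^ K; positivity)
    · positivity
  refine eq_emod_of_cast ?_ hlt
  have hH : H w S 0 a x y z = ∑ e2 ∈ Finset.range 16, ∑ e3 ∈ Finset.range 16,
      t0 w S x y z e2 e3 := by
    rw [H, G, Nat.factorial_zero, Nat.cast_one, one_mul, Fgen_zero,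
      row_eq_sum w S vdm6_homog 16 (by norm_num), Finset.sum_comm]
    rfl
  have hsmall : ∑ e2 ∈ Finset.range 16, ∑ e3 ∈ Finset.range 16, t0 w S x y z e2 e3 =
      ∑ e2 ∈ Finset.range 6, ∑ e3 ∈ Finset.range 6, t0 w S x y z e2 e3 := by
    have hr : Finset.range 6 ⊆ Finset.range 16 := Finset.range_subset_range.2 (by norm_num)
    rw [← Finset.sum_subset hr]
    · apply Finset.sum_congr rfl
      intro e2 _
      rw [← Finset.sum_subset hr]
      intro e3 _ he3
      apply t0_big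
      rw [Finset.mem_range] at he3
      right; left
      omega
    · intro e2 _ he2
      apply Finset.sum_eq_zero
      intro e3 _
      apply t0_big
      rw [Finset.mem_range] at he2
      left
      omega
  rw [hH, hsmall, row0, bt_ble]
  split_ifs with hx
  · change ((Nat.mod _ (2 ^ K) : ℕ) : ZMod (2 ^ K)) = _
    rw [show ∀ m : ℕ, Nat.mod m (2 ^ K) = m % 2 ^ K from fun _ => rfl, ZMod.natCast_mod, sm_eq,
      Nat.cast_sum, Int.cast_sum]
    apply Finset.sum_congr rfl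
    intro e2 _
    rw [sm_eq, Nat.cast_sum, Int.cast_sum]
    apply Finset.sum_congr rfl
    intro e3 _
    rw [fc_eq]
    exact term_cast w S K x y z e2 e3
  · rw [Nat.cast_zero]
    symm
    rw [Finset.sum_eq_zero, Int.cast_zero]
    intro e2 _
    apply Finset.sum_eq_zero
    intro e3 _
    apply t0_big
    right; right
    omega

/-- **The Pieri form of the first term is sound.** -/
theorem pie_sound {w S K N a : ℕ} {F : Tb} (h : Sound w S K N a F) {x y z : ℕ} (hzy : z < y)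
    (hyx : y < x) : ((pie w S K a F x y z : ℕ) : ZMod (2 ^ K)) =
      ((ctrZ w S 1 a (H w S N a) x y z : ℤ) : ZMod (2 ^ K)) := by
  rw [pie_eq_ctr w S K a F (fun x y z h1 h2 => (h.tab x y z h1 h2).2) hzy hyx]
  exact ctr_cast h.tab (H_anti w S N a) w S 1 a x y z

end Vale.Agent.P181.H177
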