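import Mathlib

set_option autoImplicit false

/-!
# P181 (helper177): the Vandermonde determinant and Euler operators
-/

namespace Vale.Agent.P181.H177

open MvPolynomial

variable {n : ℕ}

/-- The Euler operator of one variable. -/
noncomputable def eul (i : Fin n) :
    Derivation ℂ (MvPolynomial (Fin n) ℂ) (MvPolynomial (Fin n) ℂ) :=
  (X i : MvPolynomial (Fin n) ℂ) • pderiv i

lemma eul_apply (i : Fin n) (f : MvPolynomial (Fin n) ℂ) : eul i f = X i * pderiv i f := rfl

lemma coeff_eul (i : Fin n) (f : MvPolynomial (Fin n) ℂ) (m : Fin n →₀ ℕ) :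
    coeff m (eul i f) = (m i : ℂ) * coeff m f := by
  classical
  rw [eul_apply, coeff_X_mul']
  split_ifs with h
  · rw [coeff_pderiv]
    have h1 : 1 ≤ m i := Nat.one_le_iff_ne_zero.2 (Finsupp.mem_support_iff.1 h)
    have h2 : m - Finsupp.single i 1 + Finsupp.single i 1 = m := by
      apply tsub_add_cancel_of_le
      rwa [Finsupp.single_le_iff]
    rw [h2, Finsupp.tsub_apply, Finsupp.single_eq_same, Nat.cast_sub h1]
    ring
  · have h1 : m i = 0 := by
      by_contra h2
      exact h (Finsupp.mem_support_iff.2 h2)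
    rw [h1]
    simp

lemma eul_X (i j : Fin n) : eul i (X j : MvPolynomial (Fin n) ℂ) = if i = j then X i else 0 := by
  classical
  rw [eul_apply, pderiv_X]
  by_cases h : i = j
  · subst h
    simp
  · rw [if_neg h, Pi.single_apply, if_neg (Ne.symm h), mul_zero]

lemma deriv_prod {A : Type*} [CommRing A] [Algebra ℂ A] {ι : Type*} [DecidableEq ι]
    (D : Derivation ℂ A A) (s : Finset ι) (f : ι → A) :
    D (∏ i ∈ s, f i) = ∑ i ∈ s, (∏ j ∈ s.erase i, f j) * D (f i) := by
  induction s using Finset.induction_on with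
  | empty => simp
  | insert a s ha ih =>
    rw [Finset.prod_insert ha, Derivation.leibniz, ih, Finset.sum_insert ha,
      Finset.erase_insert ha, smul_eq_mul, smul_eq_mul, add_comm]
    congr 1
    rw [Finset.mul_sum]
    apply Finset.sum_congr rfl
    intro i hi
    have h1 : a ∉ s.erase i := fun h => ha (Finset.mem_of_mem_erase h)
    have h2 : (insert a s).erase i = insert a (s.erase i) := by
      rw [Finset.erase_insert_of_ne]
      rintro rfl
      exact ha hi
    rw [h2, Finset.prod_insert h1]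
    ring

/-- The exponents of the term of `σ` in the Vandermonde determinant. -/
noncomputable def ex (σ : Equiv.Perm (Fin n)) : Fin n →₀ ℕ :=
  Finsupp.equivFunOnFinite.symm (fun i => n - 1 - (σ i : ℕ))

lemma ex_apply (σ : Equiv.Perm (Fin n)) (i : Fin n) : ex σ i = n - 1 - (σ i : ℕ) := rfl

/-- The Vandermonde determinant with leading term `x_0^(n-1) x_1^(n-2) ⋯`. -/
noncomputable def VM (n : ℕ) (K : Type*) [CommRing K] : MvPolynomial (Fin n) K :=
  ∑ σ : Equiv.Perm (Fin n), monomial (ex σ) (((Equiv.Perm.sign σ : ℤˣ) : ℤ) : K)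

lemma VM_eq_det (K : Type*) [CommRing K] : VM n K =
    Matrix.det (Matrix.of fun j i : Fin n => (X i : MvPolynomial (Fin n) K) ^ (n - 1 - (j : ℕ))) := by
  rw [Matrix.det_apply, VM]
  apply Finset.sum_congr rfl
  intro σ _
  have h1 : ∏ i : Fin n, (Matrix.of fun j i : Fin n =>
      (X i : MvPolynomial (Fin n) K) ^ (n - 1 - (j : ℕ))) (σ i) i = monomial (ex σ) 1 := by
    rw [monomial_eq, C_1, one_mul, Finsupp.prod_fintype]
    · rfl
    · intro i
      exact pow_zero _
  rw [h1, Units.smul_def, ← map_zsmul]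
  congr 1
  simp

lemma VM_eq_prod (K : Type*) [CommRing K] : ∃ e : ℤˣ, VM n K = ((e : ℤ) : MvPolynomial (Fin n) K) *
    ∏ p ∈ (Finset.univ : Finset (Fin n)).sigma (fun i => Finset.Ioi i),
      ((X p.2 : MvPolynomial (Fin n) K) - X p.1) := by
  refine ⟨Equiv.Perm.sign (Fin.revPerm : Equiv.Perm (Fin n)), ?_⟩
  rw [VM_eq_det, Finset.prod_sigma, ← Matrix.det_vandermonde, ← Matrix.det_transpose
    (Matrix.vandermonde _), ← Matrix.det_permute]
  congr 1
  ext j i
  simp only [Matrix.of_apply, Matrix.submatrix_apply, Matrix.transpose_apply,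
    Matrix.vandermonde_apply, Fin.revPerm_apply, id_eq, Fin.val_rev]
  congr 2
  omega

/-- The quotients of the Vandermonde determinant by the differences of the variables. -/
theorem exists_quot (n : ℕ) : ∃ Q : Fin n → Fin n → MvPolynomial (Fin n) ℂ,
    (∀ i, Q i i = 0) ∧
    (∀ i j, i ≠ j → (X i - X j) * Q i j = VM n ℂ) ∧
    (∀ i j, Q j i = - Q i j) ∧
    (∀ i, eul i (VM n ℂ) = ∑ j, X i * Q i j) := by
  classical
  obtain ⟨e, he⟩ := VM_eq_prod (n := n) ℂ
  set U : Finset (Σ _ : Fin n, Fin n) :=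
    (Finset.univ : Finset (Fin n)).sigma (fun i => Finset.Ioi i) with hU
  have hmem : ∀ i j : Fin n, (⟨i, j⟩ : Σ _ : Fin n, Fin n) ∈ U ↔ i < j := by
    intro i j
    rw [hU, Finset.mem_sigma, Finset.mem_Ioi]
    exact ⟨fun h => h.2, fun h => ⟨Finset.mem_univ _, h⟩⟩
  let f : (Σ _ : Fin n, Fin n) → MvPolynomial (Fin n) ℂ := fun p => X p.2 - X p.1
  let P : Fin n → Fin n → MvPolynomial (Fin n) ℂ := fun a b =>
    ((e : ℤ) : MvPolynomial (Fin n) ℂ) * ∏ q ∈ U.erase ⟨a, b⟩, f q
  have hP : ∀ a b, a < b → (X b - X a) * P a b = VM n ℂ := by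
    intro a b hab
    rw [he]
    have h1 := Finset.mul_prod_erase U f ((hmem a b).2 hab)
    change (X b - X a) * (((e : ℤ) : MvPolynomial (Fin n) ℂ) * ∏ q ∈ U.erase ⟨a, b⟩, f q) =
      ((e : ℤ) : MvPolynomial (Fin n) ℂ) * ∏ q ∈ U, f q
    rw [← h1]
    change _ = ((e : ℤ) : MvPolynomial (Fin n) ℂ) * ((X b - X a) * ∏ q ∈ U.erase ⟨a, b⟩, f q)
    ring
  refine ⟨fun i j => if i < j then - P i j else if j < i then P j i else 0, ?_, ?_, ?_, ?_⟩
  · intro i
    simp
  · intro i j hij
    rcases lt_or_gt_of_ne hij with h | h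
    · simp only [if_pos h]
      rw [← hP i j h]
      ring
    · simp only [if_neg (lt_asymm h), if_pos h]
      rw [← hP j i h]
  · intro i j
    rcases lt_trichotomy i j with h | h | h
    · simp only [if_pos h, if_neg (lt_asymm h), neg_neg]
    · subst h
      simp
    · simp only [if_pos h, if_neg (lt_asymm h)]
  · intro i
    rw [he, Derivation.leibniz]
    have h0 : eul i ((e : ℤ) : MvPolynomial (Fin n) ℂ) = 0 := by
      have h1 : ((e : ℤ) : MvPolynomial (Fin n) ℂ) = C (((e : ℤ)) : ℂ) := by simp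
      rw [h1, eul_apply, pderiv_C, mul_zero]
    rw [h0, smul_zero, add_zero, deriv_prod, smul_eq_mul, Finset.mul_sum, Finset.sum_sigma]
    have h2 : ∀ a b : Fin n, ((e : ℤ) : MvPolynomial (Fin n) ℂ) *
        ((∏ q ∈ U.erase ⟨a, b⟩, f q) * eul i ((X b : MvPolynomial (Fin n) ℂ) - X a)) =
        (if i = b then X i * P a b else 0) - (if i = a then X i * P a b else 0) := by
      intro a b
      rw [map_sub, eul_X, eul_X]
      change _ = (if i = b then X i * (((e : ℤ) : MvPolynomial (Fin n) ℂ) *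
          ∏ q ∈ U.erase ⟨a, b⟩, f q) else 0) - (if i = a then X i *
          (((e : ℤ) : MvPolynomial (Fin n) ℂ) * ∏ q ∈ U.erase ⟨a, b⟩, f q) else 0)
      split_ifs <;> ring
    have h3 : ∀ a : Fin n, ∑ b ∈ Finset.Ioi a, ((e : ℤ) : MvPolynomial (Fin n) ℂ) *
        ((∏ q ∈ U.erase ⟨a, b⟩, f q) * eul i ((X b : MvPolynomial (Fin n) ℂ) - X a)) =
        (if a < i then X i * P a i else 0) -
          (if i = a then ∑ b ∈ Finset.Ioi a, X i * P a b else 0) := by
      intro a
      rw [Finset.sum_congr rfl (fun b _ => h2 a b), Finset.sum_sub_distrib, Finset.sum_ite_eq]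
      congr 1
      · simp only [Finset.mem_Ioi]
      · split_ifs
        · rfl
        · exact Finset.sum_const_zero
    rw [Finset.sum_congr rfl (fun a _ => h3 a), Finset.sum_sub_distrib, Finset.sum_ite_eq,
      if_pos (Finset.mem_univ _)]
    have h4 : ∑ b ∈ Finset.Ioi i, X i * P i b = ∑ b, if i < b then X i * P i b else 0 := by
      rw [← Finset.sum_filter]
      apply Finset.sum_congr _ (fun _ _ => rfl)
      ext b
      simp
    rw [h4, ← Finset.sum_sub_distrib]
    apply Finset.sum_congr rfl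
    intro j _
    rcases lt_trichotomy i j with h | h | h
    · simp only [if_pos h, if_neg (lt_asymm h)]
      ring
    · subst h
      simp
    · simp only [if_pos h, if_neg (lt_asymm h)]
      ring

/-- The square of the length of `(n-1, n-2, ..., 0)`. -/
def dd (n : ℕ) : ℕ := ∑ i : Fin n, (n - 1 - (i : ℕ)) ^ 2

/-- The Vandermonde determinant is an eigenvector of the sum of the squares of the Euler
operators. -/
theorem sum_eul_sq_VM (n : ℕ) : ∑ i, eul i (eul i (VM n ℂ)) = (dd n : ℂ) • VM n ℂ := by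
  classical
  ext m
  rw [coeff_sum, coeff_smul, smul_eq_mul]
  have h1 : ∀ i, coeff m (eul i (eul i (VM n ℂ))) = (m i : ℂ) ^ 2 * coeff m (VM n ℂ) := by
    intro i
    rw [coeff_eul, coeff_eul]
    ring
  rw [Finset.sum_congr rfl (fun i _ => h1 i), ← Finset.sum_mul]
  by_cases h : coeff m (VM n ℂ) = 0
  · rw [h, mul_zero, mul_zero]
  · congr 1
    rw [VM, coeff_sum] at h
    obtain ⟨σ, -, hσ⟩ := Finset.exists_ne_zero_of_sum_ne_zero h
    rw [coeff_monomial] at hσ
    have h2 : ex σ = m := by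
      by_contra h3
      rw [if_neg h3] at hσ
      exact hσ rfl
    rw [← h2, dd]
    push_cast
    exact Equiv.sum_comp σ (fun i : Fin n => (((n - 1 - (i : ℕ) : ℕ)) : ℂ) ^ 2)

/-- The formal identity. -/
theorem key_identity (chi : MvPolynomial (Fin n) ℂ) (T : Fin n → Fin n → MvPolynomial (Fin n) ℂ)
    (hT : ∀ i j, i ≠ j → (X i - X j) * T i j = X j * (eul i chi - eul j chi))
    (hT0 : ∀ i, T i i = 0) :
    VM n ℂ * (∑ i, eul i (eul i chi) + ∑ i, ∑ j, T i j) =
      ∑ i, eul i (eul i (VM n ℂ * chi)) - (dd n : ℂ) • (VM n ℂ * chi) -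
        ((n : ℂ) - 1) • (VM n ℂ * ∑ i, eul i chi) := by
  classical
  obtain ⟨Q, Q0, Q1, Q2, Q3⟩ := exists_quot n
  set V := VM n ℂ with hV
  have e1 : V * ∑ i, ∑ j, T i j = ∑ i, ∑ j, Q i j * X j * (eul i chi - eul j chi) := by
    rw [Finset.mul_sum]
    apply Finset.sum_congr rfl
    intro i _
    rw [Finset.mul_sum]
    apply Finset.sum_congr rfl
    intro j _
    by_cases h : i = j
    · subst h
      rw [hT0, Q0]
      ring
    · rw [← Q1 i j h]
      calc (X i - X j) * Q i j * T i j = Q i j * ((X i - X j) * T i j) := by ring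
        _ = _ := by rw [hT i j h]; ring
  have e2 : ∑ i, ∑ j, X i * Q i j * eul i chi = - ∑ i, ∑ j, X j * Q i j * eul j chi := by
    rw [Finset.sum_comm, ← Finset.sum_neg_distrib]
    apply Finset.sum_congr rfl
    intro i _
    rw [← Finset.sum_neg_distrib]
    apply Finset.sum_congr rfl
    intro j _
    rw [Q2 i j]
    ring
  have e3 : (2 : MvPolynomial (Fin n) ℂ) * ∑ i, eul i V * eul i chi =
      ∑ i, ∑ j, Q i j * (X i * eul i chi - X j * eul j chi) := by
    have h1 : ∑ i, eul i V * eul i chi = ∑ i, ∑ j, X i * Q i j * eul i chi := by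
      apply Finset.sum_congr rfl
      intro i _
      rw [Q3 i, Finset.sum_mul]
    have h2 : ∑ i, ∑ j, Q i j * (X i * eul i chi - X j * eul j chi) =
        ∑ i, ∑ j, X i * Q i j * eul i chi - ∑ i, ∑ j, X j * Q i j * eul j chi := by
      rw [← Finset.sum_sub_distrib]
      apply Finset.sum_congr rfl
      intro i _
      rw [← Finset.sum_sub_distrib]
      apply Finset.sum_congr rfl
      intro j _
      ring
    rw [h2, h1, e2]
    ring
  have e4 : ((n : ℂ) - 1) • (V * ∑ i, eul i chi) =
      ∑ i, ∑ j, Q i j * (X i - X j) * eul i chi := by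
    have h1 : ∀ i, ∑ j, Q i j * (X i - X j) = ((n : ℂ) - 1) • V := by
      intro i
      have h2 : ∀ j, Q i j * (X i - X j) = V - if i = j then V else 0 := by
        intro j
        by_cases h : i = j
        · subst h
          rw [Q0, if_pos rfl]
          ring
        · rw [if_neg h, ← Q1 i j h]
          ring
      rw [Finset.sum_congr rfl (fun j _ => h2 j), Finset.sum_sub_distrib, Finset.sum_ite_eq,
        if_pos (Finset.mem_univ _), Finset.sum_const, Finset.card_univ, Fintype.card_fin,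
        sub_smul, one_smul, Nat.cast_smul_eq_nsmul]
    rw [Finset.mul_sum, Finset.smul_sum]
    apply Finset.sum_congr rfl
    intro i _
    rw [← Finset.sum_mul, h1 i, smul_mul_assoc]
  have e5 : ∑ i, eul i (eul i (V * chi)) = (∑ i, eul i (eul i V)) * chi +
      2 * ∑ i, eul i V * eul i chi + V * ∑ i, eul i (eul i chi) := by
    rw [Finset.sum_mul, Finset.mul_sum, Finset.mul_sum, ← Finset.sum_add_distrib,
      ← Finset.sum_add_distrib]
    apply Finset.sum_congr rfl
    intro i _
    rw [Derivation.leibniz, map_add, smul_eq_mul, smul_eq_mul, Derivation.leibniz,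
      Derivation.leibniz, smul_eq_mul, smul_eq_mul, smul_eq_mul, smul_eq_mul]
    ring
  have e6 : ∑ i, ∑ j, Q i j * X j * (eul i chi - eul j chi) =
      ∑ i, ∑ j, Q i j * (X i * eul i chi - X j * eul j chi) -
        ∑ i, ∑ j, Q i j * (X i - X j) * eul i chi := by
    rw [← Finset.sum_sub_distrib]
    apply Finset.sum_congr rfl
    intro i _
    rw [← Finset.sum_sub_distrib]
    apply Finset.sum_congr rfl
    intro j _
    ring
  rw [mul_add, e1, e6, e5, e3, e4, sum_eul_sq_VM n, smul_mul_assoc]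
  ring

/-- The coefficients of the identity for a homogeneous polynomial. -/
theorem key_coeff (chi K : MvPolynomial (Fin n) ℂ) (d : ℕ)
    (hd : ∀ m, coeff m chi ≠ 0 → ∑ i, m i = d)
    (T : Fin n → Fin n → MvPolynomial (Fin n) ℂ)
    (hT : ∀ i j, i ≠ j → (X i - X j) * T i j = X j * (eul i chi - eul j chi))
    (hT0 : ∀ i, T i i = 0) (hK : K = ∑ i, eul i (eul i chi) + ∑ i, ∑ j, T i j)
    (m : Fin n →₀ ℕ) :
    coeff m (VM n ℂ * K) =
      (∑ i, (m i : ℂ) ^ 2 - dd n - ((n : ℂ) - 1) * d) * coeff m (VM n ℂ * chi) := by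
  have h1 : ∑ i, eul i chi = (d : ℂ) • chi := by
    ext m
    rw [coeff_sum, coeff_smul, smul_eq_mul, Finset.sum_congr rfl (fun i _ => coeff_eul i chi m),
      ← Finset.sum_mul]
    by_cases h : coeff m chi = 0
    · rw [h, mul_zero, mul_zero]
    · rw [← hd m h, Nat.cast_sum]
  have h2 := key_identity chi T hT hT0
  rw [← hK, h1] at h2
  rw [h2, coeff_sub, coeff_sub, coeff_smul, coeff_smul, mul_smul_comm, coeff_smul, coeff_sum]
  have h3 : ∀ i, coeff m (eul i (eul i (VM n ℂ * chi))) =
      (m i : ℂ) ^ 2 * coeff m (VM n ℂ * chi) := by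
    intro i
    rw [coeff_eul, coeff_eul]
    ring
  rw [Finset.sum_congr rfl (fun i _ => h3 i), ← Finset.sum_mul, smul_eq_mul, smul_eq_mul,
    smul_eq_mul]
  ring

end Vale.Agent.P181.H177
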