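import Vale.Agent.P181.H177.Weyl0
import Vale.Agent.P181.H530.Torus2

set_option autoImplicit false

/-!
# P181 (helper177): plethysm multiplicities as alternating sums of numbers of multisets
-/

namespace Vale.Agent.P181.H177

open MvPolynomial Vale.Agent.P181 Vale.Agent.P181.H280 Vale.Agent.P181.FR Vale.Agent.P181.T4
  Vale.Agent.P181.H530.Torus

variable {n N : ℕ}

/-- The weights after a row operator. -/
lemma rowOp_raise {a : ℕ} {s i : Fin n} (μ : Fin n →₀ ℕ)
    {f : MvPolynomial (Fin n × Fin N) ℂ}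
    (hf : f ∈ W n N a ∅ ((μ + Finsupp.single i 1 : Fin n →₀ ℕ) : Fin n → ℕ)) :
    rowOp s i f ∈ W n N a ∅ ((μ + Finsupp.single s 1 : Fin n →₀ ℕ) : Fin n → ℕ) := by
  classical
  obtain ⟨h1, h2, h3⟩ := hf
  refine ⟨fun τ => by rw [ren_rowOp, h1], fun v hv => ?_, fun q hq => absurd hq
    (Finset.notMem_empty q)⟩
  obtain ⟨j, d, hd, hdj, he⟩ := exists_of_coeff_rowOp hv
  obtain ⟨h4, h5⟩ := h2 d hd
  have he' : ∀ p : Fin n × Fin N, v p + (if (i, j) = p then 1 else 0) =
      d p + (if (s, j) = p then 1 else 0) := by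
    intro p
    have := DFunLike.congr_fun he p
    simpa only [Finsupp.add_apply, Finsupp.single_apply] using this
  constructor
  · intro r
    have h6 : ∑ j', v (r, j') + (if i = r then 1 else 0) =
        ∑ j', d (r, j') + (if s = r then 1 else 0) := by
      have h7 := Finset.sum_congr rfl (fun j' (_ : j' ∈ Finset.univ) => he' (r, j'))
      rw [Finset.sum_add_distrib, Finset.sum_add_distrib] at h7
      have h8 : ∀ x : Fin n, ∑ j' : Fin N, (if (x, j) = (r, j') then 1 else 0) =
          if x = r then 1 else 0 := by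
        intro x
        rw [Finset.sum_eq_single j]
        · simp only [Prod.mk.injEq, and_true]
        · intro j' _ hj'
          rw [if_neg (fun h => hj' (Prod.mk.inj h).2.symm)]
        · intro h
          exact absurd (Finset.mem_univ _) h
      rwa [h8, h8] at h7
    rw [h4 r, Finsupp.add_apply, Finsupp.single_apply] at h6
    rw [Finsupp.add_apply, Finsupp.single_apply]
    omega
  · intro j'
    have h7 := Finset.sum_congr rfl (fun r (_ : r ∈ Finset.univ) => he' (r, j'))
    rw [Finset.sum_add_distrib, Finset.sum_add_distrib, h5 j'] at h7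
    have h8 : ∀ x : Fin n, ∑ r : Fin n, (if (x, j) = (r, j') then 1 else 0) =
        if j = j' then 1 else 0 := by
      intro x
      rw [Finset.sum_eq_single x]
      · simp only [Prod.mk.injEq, true_and]
      · intro r _ hr
        rw [if_neg (fun h => hr (Prod.mk.inj h).1.symm)]
      · intro h
        exact absurd (Finset.mem_univ _) h
    rw [h8, h8] at h7
    exact add_right_cancel h7

/-- The Euler operator of a row. -/
lemma rowOp_diag {a : ℕ} {i : Fin n} (μ : Fin n → ℕ) {f : MvPolynomial (Fin n × Fin N) ℂ}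
    (hf : f ∈ W n N a ∅ μ) : rowOp i i f = (μ i : ℂ) • f := by
  classical
  ext v
  rw [coeff_smul, smul_eq_mul, rowOp_apply, coeff_sum]
  have h1 : ∀ j : Fin N, coeff v (X (i, j) * pderiv (i, j) f) = (v (i, j) : ℂ) * coeff v f := by
    intro j
    rw [coeff_X_mul']
    split_ifs with h
    · rw [coeff_pderiv]
      have h1 : 1 ≤ v (i, j) := Nat.one_le_iff_ne_zero.2 (Finsupp.mem_support_iff.1 h)
      have h2 : v - Finsupp.single (i, j) 1 + Finsupp.single (i, j) 1 = v := by
        apply tsub_add_cancel_of_le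
        rwa [Finsupp.single_le_iff]
      rw [h2, Finsupp.tsub_apply, Finsupp.single_eq_same, Nat.cast_sub h1]
      ring
    · have h1 : v (i, j) = 0 := by
        by_contra h2
        exact h (Finsupp.mem_support_iff.2 h2)
      rw [h1]
      simp
  rw [Finset.sum_congr rfl (fun j _ => h1 j), ← Finset.sum_mul]
  by_cases h : coeff v f = 0
  · rw [h, mul_zero, mul_zero]
  · have h2 := (hf.2.1 v h).1 i
    rw [← h2, Nat.cast_sum]

lemma W_total {a : ℕ} {P : Finset (Fin n × Fin n)} {μ : Fin n → ℕ}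
    {f : MvPolynomial (Fin n × Fin N) ℂ} (hf : f ∈ W n N a P μ) (hne : f ≠ 0) :
    ∑ i, μ i = N * a := by
  obtain ⟨v, hv⟩ := MvPolynomial.ne_zero_iff.1 hne
  obtain ⟨h1, h2⟩ := hf.2.1 v hv
  rw [← Finset.sum_congr rfl (fun i _ => h1 i), Finset.sum_comm,
    Finset.sum_congr rfl (fun j _ => h2 j), Finset.sum_const, Finset.card_univ, Fintype.card_fin,
    smul_eq_mul]

/-- The module of symmetric polynomials. -/
noncomputable def plethMod (n N a : ℕ) : GLMod n (MvPolynomial (Fin n × Fin N) ℂ) where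
  E := fun i j => rowOp i j
  M := fun μ => W n N a ∅ (μ : Fin n → ℕ)
  d := N * a
  comm := fun i j k l x => rowOp_comm i j k l x
  fin := fun _ => inferInstance
  diag := fun μ _ _ hx => rowOp_diag μ hx
  raise := fun μ _ _ _ _ hx => rowOp_raise μ hx
  vanish := fun _ _ _ _ h _ hx => rowOp_W_zero h hx
  deg := fun _ _ hx hne => W_total hx hne

lemma hws_eq (n N a : ℕ) (lam : Fin n →₀ ℕ) :
    (plethMod n N a).hws lam = W n N a (Up n) lam := by
  ext f
  rw [GLMod.mem_hws]
  change (f ∈ W n N a ∅ lam ∧ ∀ i j, i < j → rowOp i j f = 0) ↔ _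
  constructor
  · rintro ⟨h1, h2⟩
    exact ⟨h1.1, h1.2.1, fun q hq => h2 q.1 q.2 (mem_Up.1 hq)⟩
  · rintro ⟨h1, h2, h3⟩
    exact ⟨⟨h1, h2, fun q hq => absurd hq (Finset.notMem_empty q)⟩,
      fun i j hij => h3 (i, j) (mem_Up.2 hij)⟩

/-- **Plethysm multiplicities as alternating sums of numbers of multisets.** -/
theorem plethMult_weyl (n N a : ℕ) (lam : Fin n → ℕ) (hl : Antitone lam) :
    (plethMult N a n lam : ℤ) = ∑ σ : Equiv.Perm (Fin n), ((Equiv.Perm.sign σ : ℤˣ) : ℤ) *
      (if ∀ i : Fin n, (i : ℕ) ≤ lam i + (σ i : ℕ) then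
        ((MS n N a (fun i => lam i + (σ i : ℕ) - (i : ℕ))).ncard : ℤ) else 0) := by
  classical
  set l : Fin n →₀ ℕ := Finsupp.equivFunOnFinite.symm lam with hl0
  have h1 := (plethMod n N a).weyl (lam := l) hl
  rw [hws_eq, ← plethMult_eq_W] at h1
  have h2 : (⇑l : Fin n → ℕ) = lam := rfl
  rw [h2] at h1
  rw [h1]
  apply Finset.sum_congr rfl
  intro σ _
  congr 1
  by_cases h : ∀ i : Fin n, (i : ℕ) ≤ lam i + (σ i : ℕ)
  · rw [if_pos h, if_pos h]
    change ((Module.finrank ℂ (W n N a ∅ ((l + ex 1 - ex σ : Fin n →₀ ℕ) : Fin n → ℕ)) : ℕ) : ℤ) = _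
    rw [finrank_W_empty]
    congr 3
    funext i
    exact GLMod.sub_ex_apply i
  · rw [if_neg h, if_neg h]

end Vale.Agent.P181.H177
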