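import Vale.Agent.P181.H177.Kill

set_option autoImplicit false

/-!
# P181 (helper177): dominance and the antisymmetrised character
-/

namespace Vale.Agent.P181.H177

open MvPolynomial

namespace GLMod

variable {n : ℕ}

/-- Sum of the first entries. -/
def hd (r : ℕ) (μ : Fin n →₀ ℕ) : ℤ := ∑ i : Fin n, if (i : ℕ) < r then (μ i : ℤ) else 0

/-- The weighted sum. -/
def wt (μ : Fin n →₀ ℕ) : ℤ := ∑ i : Fin n, ((i : ℕ) : ℤ) * (μ i : ℤ)

/-- `μ` dominates `lam`. -/
def Dm (μ lam : Fin n →₀ ℕ) : Prop :=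
  ∑ i, (μ i : ℤ) = ∑ i, (lam i : ℤ) ∧ ∀ r, hd r lam ≤ hd r μ

lemma sum_add_single (f : Fin n → ℤ → ℤ) (hf : ∀ i a b, f i (a + b) = f i a + f i b)
    (ν : Fin n →₀ ℕ) (i : Fin n) :
    ∑ k, f k ((ν + Finsupp.single i 1 : Fin n →₀ ℕ) k : ℤ) = ∑ k, f k (ν k) + f i 1 := by
  classical
  have h1 : ∀ k, f k ((ν + Finsupp.single i 1 : Fin n →₀ ℕ) k : ℤ) =
      f k (ν k) + if i = k then f k 1 else 0 := by
    intro k
    rw [Finsupp.add_apply, Nat.cast_add, hf]
    congr 1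
    by_cases h : i = k
    · subst h
      rw [Finsupp.single_eq_same, if_pos rfl]
      rfl
    · rw [Finsupp.single_eq_of_ne (Ne.symm h), if_neg h]
      have h2 := hf k 0 0
      rw [add_zero] at h2
      have h3 : f k 0 = 0 := by omega
      exact h3
  rw [Finset.sum_congr rfl (fun k _ => h1 k), Finset.sum_add_distrib, Finset.sum_ite_eq,
    if_pos (Finset.mem_univ _)]

lemma hd_add_single (r : ℕ) (ν : Fin n →₀ ℕ) (i : Fin n) :
    hd r (ν + Finsupp.single i 1) = hd r ν + if (i : ℕ) < r then 1 else 0 := by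
  apply sum_add_single (fun k a => if (k : ℕ) < r then a else 0)
  intro i a b
  split_ifs <;> ring

lemma wt_add_single (ν : Fin n →₀ ℕ) (i : Fin n) :
    wt (ν + Finsupp.single i 1) = wt ν + (i : ℕ) := by
  have h := sum_add_single (fun k a => ((k : ℕ) : ℤ) * a) (fun i a b => mul_add _ _ _) ν i
  rw [wt, h, mul_one]
  rfl

lemma Dm_raise {ν lam : Fin n →₀ ℕ} {i j : Fin n} (hij : i < j)
    (h : Dm (ν + Finsupp.single j 1) lam) : Dm (ν + Finsupp.single i 1) lam := by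
  obtain ⟨h1, h2⟩ := h
  constructor
  · rw [← h1, sum_add_single (fun _ a => a) (fun _ _ _ => rfl) ν i,
      sum_add_single (fun _ a => a) (fun _ _ _ => rfl) ν j]
  · intro r
    have h3 := h2 r
    rw [hd_add_single] at h3 ⊢
    have h4 : (i : ℕ) < j := hij
    split_ifs at h3 ⊢ <;> omega

lemma abel_aux (n : ℕ) : ∀ (x a : Fin (n + 1) → ℤ),
    (∀ r : ℕ, 0 ≤ ∑ i : Fin (n + 1), if (i : ℕ) < r then x i else 0) → Antitone a →
    (∑ i, x i) * a (Fin.last n) ≤ ∑ i, x i * a i := by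
  induction n with
  | zero =>
    intro x a _ _
    simp
  | succ n ih =>
    intro x a hx ha
    rw [Fin.sum_univ_castSucc, Fin.sum_univ_castSucc (fun i => x i * a i)]
    have h0 : ∀ r, r ≤ n + 1 → ∑ i : Fin (n + 1), (if (i : ℕ) < r then x i.castSucc else 0) =
        ∑ i : Fin (n + 2), if (i : ℕ) < r then x i else 0 := by
      intro r hr
      rw [Fin.sum_univ_castSucc (fun i : Fin (n + 2) => if (i : ℕ) < r then x i else 0),
        if_neg (by rw [Fin.val_last]; omega), add_zero]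
      rfl
    have hall : ∀ r, n + 1 ≤ r → ∑ i : Fin (n + 1), (if (i : ℕ) < r then x i.castSucc else 0) =
        ∑ i : Fin (n + 1), x i.castSucc := by
      intro r hr
      apply Finset.sum_congr rfl
      intro i _
      rw [if_pos (lt_of_lt_of_le i.2 hr)]
    have h1 : 0 ≤ ∑ i : Fin (n + 1), x i.castSucc := by
      rw [← hall (n + 1) le_rfl, h0 (n + 1) le_rfl]
      exact hx _
    have h2 := ih (fun i => x i.castSucc) (fun i => a i.castSucc) (by
      intro r
      rcases le_total r (n + 1) with h | h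
      · rw [h0 r h]
        exact hx r
      · rw [hall r h]
        exact h1) (fun i j hij => ha (Fin.castSucc_le_castSucc_iff.2 hij))
    have h3 : a (Fin.last (n + 1)) ≤ a (Fin.last n).castSucc := ha (Fin.le_last _)
    have h4 := mul_le_mul_of_nonneg_left h3 h1
    nlinarith [h2, h4]

lemma abel_nonneg (x a : Fin n → ℤ)
    (hx : ∀ r : ℕ, 0 ≤ ∑ i : Fin n, if (i : ℕ) < r then x i else 0) (ha : Antitone a)
    (h0 : ∑ i, x i = 0) : 0 ≤ ∑ i, x i * a i := by
  cases n with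
  | zero => simp
  | succ n =>
    have h := abel_aux n x a hx ha
    rwa [h0, zero_mul] at h

lemma cz_lt {μ lam : Fin n →₀ ℕ} (hD : Dm μ lam) (hw : wt μ < wt lam) (hμ : Antitone μ)
    (hl : Antitone lam) : cz lam < cz μ := by
  have h1 : 0 ≤ ∑ i, ((μ i : ℤ) - lam i) * ((μ i : ℤ) + lam i) := by
    apply abel_nonneg
    · intro r
      have h2 : ∑ i : Fin n, (if (i : ℕ) < r then (μ i : ℤ) - lam i else 0) =
          hd r μ - hd r lam := by
        rw [hd, hd, ← Finset.sum_sub_distrib]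
        apply Finset.sum_congr rfl
        intro i _
        split_ifs <;> ring
      rw [h2]
      linarith [hD.2 r]
    · intro i j hij
      have := hμ hij
      have := hl hij
      dsimp only
      omega
    · rw [Finset.sum_sub_distrib, hD.1, sub_self]
  have h2 : cz μ - cz lam = ∑ i, ((μ i : ℤ) - lam i) * ((μ i : ℤ) + lam i) +
      ((n : ℤ) - 1) * (∑ i, (μ i : ℤ) - ∑ i, (lam i : ℤ)) - 2 * (wt μ - wt lam) := by
    rw [cz, cz, wt, wt, ← Finset.sum_sub_distrib, ← Finset.sum_sub_distrib,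
      ← Finset.sum_sub_distrib, Finset.mul_sum, Finset.mul_sum, ← Finset.sum_add_distrib,
      ← Finset.sum_sub_distrib]
    apply Finset.sum_congr rfl
    intro i _
    ring
  rw [hD.1, sub_self, mul_zero, add_zero] at h2
  linarith

variable {R : Type*} [AddCommGroup R] [Module ℂ R] (G : GLMod n R)

/-- A polynomial in the Casimir operator which sends a weight space to highest weight vectors. -/
lemma exists_raise {μ : Fin n →₀ ℕ} (c : ℂ)
    (h : ∀ i j, i < j → 1 ≤ μ j → ∃ f : Polynomial ℂ, f.eval c ≠ 0 ∧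
      ∀ x ∈ G.M (μ - Finsupp.single j 1 + Finsupp.single i 1), G.pO f x = 0) :
    ∃ F : Polynomial ℂ, F.eval c ≠ 0 ∧ ∀ x ∈ G.M μ, ∀ i j, i < j → G.E i j (G.pO F x) = 0 := by
  classical
  have h' : ∀ p : Fin n × Fin n, ∃ f : Polynomial ℂ, f.eval c ≠ 0 ∧ (p.1 < p.2 → 1 ≤ μ p.2 →
      ∀ x ∈ G.M (μ - Finsupp.single p.2 1 + Finsupp.single p.1 1), G.pO f x = 0) := by
    intro p
    by_cases hp : p.1 < p.2 ∧ 1 ≤ μ p.2
    · obtain ⟨f, hf, hf2⟩ := h p.1 p.2 hp.1 hp.2
      exact ⟨f, hf, fun _ _ => hf2⟩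
    · refine ⟨1, by rw [Polynomial.eval_one]; exact one_ne_zero, fun h1 h2 => ?_⟩
      exact absurd ⟨h1, h2⟩ hp
  choose f hf hf2 using h'
  refine ⟨∏ p, f p, ?_, ?_⟩
  · rw [Polynomial.eval_prod]
    exact Finset.prod_ne_zero_iff.2 (fun p _ => hf p)
  · intro x hx i j hij
    rw [← (G.cen_pO _).c]
    by_cases hj : μ j = 0
    · rw [G.vanish μ i j hij.ne hj x hx, map_zero]
    · have hj1 := Nat.one_le_iff_ne_zero.2 hj
      have h1 : G.E i j x ∈ G.M (μ - Finsupp.single j 1 + Finsupp.single i 1) := by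
        apply G.raise _ i j hij.ne
        rwa [single_add_cancel hj1]
      rw [← Finset.prod_erase_mul _ _ (Finset.mem_univ ((i, j) : Fin n × Fin n)), pO_mul_apply,
        hf2 (i, j) hij hj1 _ h1, map_zero]

lemma exists_kill {lam : Fin n →₀ ℕ} (hl : Antitone lam) : ∀ (N : ℕ) (μ : Fin n →₀ ℕ),
    wt μ < N → Dm μ lam → wt μ < wt lam →
    ∃ f : Polynomial ℂ, f.eval ((cz lam : ℤ) : ℂ) ≠ 0 ∧ ∀ x ∈ G.M μ, G.pO f x = 0 := by
  classical
  intro N
  induction N with
  | zero =>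
    intro μ h
    exfalso
    have : 0 ≤ wt μ := Finset.sum_nonneg (fun i _ => by positivity)
    rw [Nat.cast_zero] at h
    omega
  | succ N ih =>
    intro μ hN hD hw
    obtain ⟨F, hF, hF2⟩ := G.exists_raise (μ := μ) ((cz lam : ℤ) : ℂ) (by
      intro i j hij hj
      have h1 := single_add_cancel hj
      have h2 : wt μ = wt (μ - Finsupp.single j 1) + (j : ℕ) := by
        rw [← wt_add_single, h1]
      have h3 : (i : ℕ) < j := hij
      apply ih
      · rw [wt_add_single]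
        push_cast at hN
        omega
      · apply Dm_raise hij
        rwa [h1]
      · rw [wt_add_single]
        omega)
    by_cases hμ : Antitone μ
    · refine ⟨(Polynomial.X - Polynomial.C ((cz μ : ℤ) : ℂ)) * F, ?_, ?_⟩
      · rw [Polynomial.eval_mul, Polynomial.eval_sub, Polynomial.eval_X, Polynomial.eval_C]
        apply mul_ne_zero _ hF
        rw [sub_ne_zero]
        intro h
        have h1 : cz lam = cz μ := by exact_mod_cast h
        have := cz_lt hD hw hμ hl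
        omega
      · intro x hx
        rw [pO_mul_apply, G.pO_hw ((G.cen_pO F).m μ x hx) (hF2 x hx), Polynomial.eval_sub,
          Polynomial.eval_X, Polynomial.eval_C, sub_self, zero_smul]
    · refine ⟨F, hF, ?_⟩
      intro x hx
      rw [Antitone] at hμ
      push Not at hμ
      obtain ⟨i, j, hij, hlt⟩ := hμ
      have hne : i ≠ j := by
        rintro rfl
        exact lt_irrefl _ hlt
      exact G.hw_zero hne hlt ((G.cen_pO F).m μ x hx) (hF2 x hx i j (lt_of_le_of_ne hij hne))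

/-! ### The weights `λ + δ - w δ` -/

lemma ex_le {σ : Equiv.Perm (Fin n)} {lam : Fin n →₀ ℕ} :
    ex σ ≤ lam + ex 1 ↔ ∀ i : Fin n, (i : ℕ) ≤ lam i + (σ i : ℕ) := by
  rw [Finsupp.le_def]
  apply forall_congr'
  intro i
  rw [Finsupp.add_apply, ex_apply, ex_apply]
  have h1 := i.2
  have h2 := (σ i).2
  change n - 1 - (σ i : ℕ) ≤ lam i + (n - 1 - (i : ℕ)) ↔ _
  omega

lemma sub_ex_apply {σ : Equiv.Perm (Fin n)} {lam : Fin n →₀ ℕ} (i : Fin n) :
    (lam + ex 1 - ex σ : Fin n →₀ ℕ) i = lam i + (σ i : ℕ) - (i : ℕ) := by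
  rw [Finsupp.tsub_apply, Finsupp.add_apply, ex_apply, ex_apply]
  have h1 := i.2
  have h2 := (σ i).2
  change lam i + (n - 1 - (i : ℕ)) - (n - 1 - (σ i : ℕ)) = _
  omega

lemma sub_ex_cast {σ : Equiv.Perm (Fin n)} {lam : Fin n →₀ ℕ} (h : ex σ ≤ lam + ex 1)
    (i : Fin n) : (((lam + ex 1 - ex σ : Fin n →₀ ℕ) i : ℕ) : ℤ) =
      (lam i : ℤ) + (σ i : ℕ) - (i : ℕ) := by
  rw [sub_ex_apply, Nat.cast_sub (ex_le.1 h i), Nat.cast_add]

lemma Dm_sub_ex {σ : Equiv.Perm (Fin n)} {lam : Fin n →₀ ℕ} (h : ex σ ≤ lam + ex 1) :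
    Dm (lam + ex 1 - ex σ) lam := by
  constructor
  · rw [Finset.sum_congr rfl (fun i _ => sub_ex_cast h i), Finset.sum_sub_distrib,
      Finset.sum_add_distrib, Equiv.sum_comp σ (fun i : Fin n => ((i : ℕ) : ℤ))]
    ring
  · intro r
    have h1 : hd r (lam + ex 1 - ex σ) = hd r lam +
        (∑ i : Fin n, (if (i : ℕ) < r then (1 : ℤ) else 0) * ((σ i : ℕ) : ℤ) -
          ∑ i : Fin n, (if (i : ℕ) < r then (1 : ℤ) else 0) * ((i : ℕ) : ℤ)) := by
      rw [hd, hd, ← Finset.sum_sub_distrib, ← Finset.sum_add_distrib]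
      apply Finset.sum_congr rfl
      intro i _
      rw [sub_ex_cast h]
      split_ifs <;> ring
    rw [h1]
    have h2 : Antivary (fun i : Fin n => if (i : ℕ) < r then (1 : ℤ) else 0)
        (fun i : Fin n => ((i : ℕ) : ℤ)) := by
      intro i j hij
      dsimp only at hij ⊢
      have h3 : (i : ℕ) < j := by exact_mod_cast hij
      split_ifs <;> omega
    have h3 := h2.sum_mul_le_sum_mul_comp_perm (σ := σ)
    linarith

lemma wt_sub_ex {σ : Equiv.Perm (Fin n)} {lam : Fin n →₀ ℕ} (h : ex σ ≤ lam + ex 1)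
    (hσ : σ ≠ 1) : wt (lam + ex 1 - ex σ) < wt lam := by
  have h1 : wt (lam + ex 1 - ex σ) = wt lam +
      (∑ i : Fin n, ((i : ℕ) : ℤ) * ((σ i : ℕ) : ℤ) - ∑ i : Fin n, ((i : ℕ) : ℤ) ^ 2) := by
    rw [wt, wt, ← Finset.sum_sub_distrib, ← Finset.sum_add_distrib]
    apply Finset.sum_congr rfl
    intro i _
    rw [sub_ex_cast h]
    ring
  have h2 : ∑ i : Fin n, (((i : ℕ) : ℤ) - ((σ i : ℕ) : ℤ)) ^ 2 =
      2 * (∑ i : Fin n, ((i : ℕ) : ℤ) ^ 2 - ∑ i : Fin n, ((i : ℕ) : ℤ) * ((σ i : ℕ) : ℤ)) := by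
    have h3 : ∀ i : Fin n, (((i : ℕ) : ℤ) - ((σ i : ℕ) : ℤ)) ^ 2 =
        ((i : ℕ) : ℤ) ^ 2 + ((σ i : ℕ) : ℤ) ^ 2 - 2 * (((i : ℕ) : ℤ) * ((σ i : ℕ) : ℤ)) := by
      intro i
      ring
    rw [Finset.sum_congr rfl (fun i _ => h3 i), Finset.sum_sub_distrib, Finset.sum_add_distrib,
      Equiv.sum_comp σ (fun i : Fin n => ((i : ℕ) : ℤ) ^ 2), ← Finset.mul_sum]
    ring
  have h4 : 0 < ∑ i : Fin n, (((i : ℕ) : ℤ) - ((σ i : ℕ) : ℤ)) ^ 2 := by
    by_contra hcon
    apply hσ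
    have h5 : ∑ i : Fin n, (((i : ℕ) : ℤ) - ((σ i : ℕ) : ℤ)) ^ 2 = 0 :=
      le_antisymm (not_lt.1 hcon) (Finset.sum_nonneg (fun i _ => sq_nonneg _))
    rw [Finset.sum_eq_zero_iff_of_nonneg (fun i _ => sq_nonneg _)] at h5
    ext i
    have h6 := h5 i (Finset.mem_univ _)
    rw [sq_eq_zero_iff, sub_eq_zero] at h6
    have h7 : (i : ℕ) = (σ i : ℕ) := by exact_mod_cast h6
    rw [← h7]
    rfl
  linarith

/-- The highest weight vectors. -/
def hws (lam : Fin n →₀ ℕ) : Submodule ℂ R where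
  carrier := {x | x ∈ G.M lam ∧ ∀ i j, i < j → G.E i j x = 0}
  zero_mem' := ⟨Submodule.zero_mem _, fun _ _ _ => map_zero _⟩
  add_mem' := by
    rintro x y ⟨h1, h2⟩ ⟨h3, h4⟩
    exact ⟨Submodule.add_mem _ h1 h3, fun i j h => by rw [map_add, h2 i j h, h4 i j h, add_zero]⟩
  smul_mem' := by
    rintro c x ⟨h1, h2⟩
    exact ⟨Submodule.smul_mem _ _ h1, fun i j h => by rw [map_smul, h2 i j h, smul_zero]⟩

lemma mem_hws {lam : Fin n →₀ ℕ} {x : R} :
    x ∈ G.hws lam ↔ x ∈ G.M lam ∧ ∀ i j, i < j → G.E i j x = 0 := Iff.rfl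

lemma sc_eq {lam : Fin n →₀ ℕ} (hd : ∑ i, lam i = G.d) :
    G.sc (lam + ex 1) = ((cz lam : ℤ) : ℂ) := by
  rw [sc, ← hd, cz, dd]
  rw [Nat.cast_sum, Nat.cast_sum, Int.cast_sum]
  rw [Finset.mul_sum, ← Finset.sum_sub_distrib, ← Finset.sum_sub_distrib]
  apply Finset.sum_congr rfl
  intro i _
  rw [Finsupp.add_apply, ex_apply]
  have h1 : (i : ℕ) + 1 ≤ n := i.2
  have h0 : (((1 : Equiv.Perm (Fin n)) i : Fin n) : ℕ) = (i : ℕ) := rfl
  rw [h0]
  have h2 : ((n - 1 - (i : ℕ) : ℕ) : ℂ) = (n : ℂ) - 1 - (i : ℕ) := by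
    have h3 : n = (n - 1 - (i : ℕ)) + 1 + i := by omega
    have h4 : (n : ℂ) = ((n - 1 - (i : ℕ) : ℕ) : ℂ) + 1 + (i : ℕ) := by
      exact_mod_cast h3
    rw [h4]
    ring
  push_cast
  rw [h2]
  ring

/-- **The multiplicity is the coefficient of the antisymmetrised character.** -/
theorem finrank_hws_eq {lam : Fin n →₀ ℕ} (hl : Antitone lam) (hdeg : ∑ i, lam i = G.d) :
    G.Av LinearMap.id (lam + ex 1) = (Module.finrank ℂ (G.hws lam) : ℂ) := by
  classical
  set c : ℂ := ((cz lam : ℤ) : ℂ) with hc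
  -- the polynomial
  obtain ⟨F₁, hF₁, hF₂⟩ := G.exists_raise (μ := lam) c (by
    intro i j hij hj
    have h1 := single_add_cancel hj
    have h2 : wt lam = wt (lam - Finsupp.single j 1) + (j : ℕ) := by
      rw [← wt_add_single, h1]
    have h3 : (i : ℕ) < j := hij
    obtain ⟨N, hN⟩ : ∃ N : ℕ, wt (lam - Finsupp.single j 1 + Finsupp.single i 1) < N := by
      refine ⟨(wt (lam - Finsupp.single j 1 + Finsupp.single i 1)).toNat + 1, ?_⟩
      push_cast
      have := Int.self_le_toNat (wt (lam - Finsupp.single j 1 + Finsupp.single i 1))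
      omega
    apply G.exists_kill hl N _ hN
    · apply Dm_raise hij
      rw [h1]
      exact ⟨rfl, fun _ => le_rfl⟩
    · rw [wt_add_single]
      omega)
  have h' : ∀ σ : Equiv.Perm (Fin n), ∃ f : Polynomial ℂ, f.eval c ≠ 0 ∧ (σ ≠ 1 →
      ex σ ≤ lam + ex 1 → ∀ x ∈ G.M (lam + ex 1 - ex σ), G.pO f x = 0) := by
    intro σ
    by_cases hσ : σ ≠ 1 ∧ ex σ ≤ lam + ex 1
    · obtain ⟨N, hN⟩ : ∃ N : ℕ, wt (lam + ex 1 - ex σ) < N := by
        refine ⟨(wt (lam + ex 1 - ex σ)).toNat + 1, ?_⟩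
        push_cast
        have := Int.self_le_toNat (wt (lam + ex 1 - ex σ))
        omega
      obtain ⟨f, hf, hf2⟩ := G.exists_kill hl N _ hN (Dm_sub_ex hσ.2) (wt_sub_ex hσ.2 hσ.1)
      exact ⟨f, hf, fun _ _ => hf2⟩
    · refine ⟨1, by rw [Polynomial.eval_one]; exact one_ne_zero, fun h1 h2 => ?_⟩
      exact absurd ⟨h1, h2⟩ hσ
  choose f hf hf2 using h'
  set F : Polynomial ℂ := F₁ * ∏ σ, f σ with hF
  have hFc : F.eval c ≠ 0 := by
    rw [hF, Polynomial.eval_mul, Polynomial.eval_prod]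
    exact mul_ne_zero hF₁ (Finset.prod_ne_zero_iff.2 (fun σ _ => hf σ))
  -- the trace on the weight space of `lam`
  have hTm : ∀ x ∈ G.M lam, G.pO F x ∈ G.M lam := (G.cen_pO F).m lam
  have hThw : ∀ x ∈ G.M lam, G.pO F x ∈ G.hws lam := by
    intro x hx
    refine ⟨hTm x hx, fun i j hij => ?_⟩
    rw [hF, pO_mul_apply]
    exact hF₂ _ ((G.cen_pO _).m lam x hx) i j hij
  have hTid : ∀ x ∈ G.hws lam, G.pO F x = F.eval c • x := fun x hx => G.pO_hw hx.1 hx.2 F
  have hfin := G.fin lam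
  set p : Submodule ℂ (G.M lam) := Submodule.comap (G.M lam).subtype (G.hws lam) with hp
  have hproj : LinearMap.IsProj p ((F.eval c)⁻¹ • (G.pO F).restrict hTm) := by
    constructor
    · intro x
      rw [hp, Submodule.mem_comap]
      change (F.eval c)⁻¹ • (G.pO F x) ∈ G.hws lam
      exact Submodule.smul_mem _ _ (hThw x x.2)
    · intro x hx
      apply Subtype.ext
      change (F.eval c)⁻¹ • (G.pO F x) = x
      rw [hTid x hx, smul_smul, inv_mul_cancel₀ hFc, one_smul]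
  have htr := hproj.trace
  have hfr : Module.finrank ℂ p = Module.finrank ℂ (G.hws lam) :=
    LinearEquiv.finrank_eq (Submodule.comapSubtypeEquivOfLe (fun x hx => hx.1))
  rw [hfr, map_smul, smul_eq_mul, ← G.tr_eq hTm] at htr
  have htr' : G.tr lam (G.pO F) = F.eval c * (Module.finrank ℂ (G.hws lam) : ℂ) := by
    rw [← htr, ← mul_assoc, mul_inv_cancel₀ hFc, one_mul]
  -- the antisymmetrised trace
  have h1 : G.Av (G.pO F) (lam + ex 1) = F.eval c * (Module.finrank ℂ (G.hws lam) : ℂ) := by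
    rw [Av_eq, Finset.sum_eq_single 1]
    · rw [if_pos le_add_self, add_tsub_cancel_right, htr']
      simp
    · intro σ _ hσ
      split_ifs with hle
      · rw [G.tr_eq_zero, mul_zero]
        intro x hx
        rw [hF, ← Finset.prod_erase_mul _ _ (Finset.mem_univ σ), ← mul_assoc, pO_mul_apply,
          hf2 σ hσ hle x hx, map_zero]
      · rw [mul_zero]
    · intro h
      exact absurd (Finset.mem_univ _) h
  have h2 := G.Av_pO F (lam + ex 1)
  rw [h1, G.sc_eq hdeg] at h2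
  exact (mul_left_cancel₀ hFc h2).symm

lemma tr_id (μ : Fin n →₀ ℕ) : G.tr μ LinearMap.id = (Module.finrank ℂ (G.M μ) : ℂ) := by
  have hf := G.fin μ
  have h : ∀ x ∈ G.M μ, (LinearMap.id : R →ₗ[ℂ] R) x ∈ G.M μ := fun _ hx => hx
  rw [G.tr_eq h, ← LinearMap.trace_id]
  rfl

/-- **Multiplicities as alternating sums of weight multiplicities.** -/
theorem weyl {lam : Fin n →₀ ℕ} (hl : Antitone lam) :
    (Module.finrank ℂ (G.hws lam) : ℤ) = ∑ σ : Equiv.Perm (Fin n),
      ((Equiv.Perm.sign σ : ℤˣ) : ℤ) *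
        (if ∀ i : Fin n, (i : ℕ) ≤ lam i + (σ i : ℕ) then
          (Module.finrank ℂ (G.M (lam + ex 1 - ex σ)) : ℤ) else 0) := by
  classical
  by_cases hdeg : ∑ i, lam i = G.d
  · have h1 := G.finrank_hws_eq hl hdeg
    rw [Av_eq] at h1
    have h2 : ((∑ σ : Equiv.Perm (Fin n), ((Equiv.Perm.sign σ : ℤˣ) : ℤ) *
        (if ∀ i : Fin n, (i : ℕ) ≤ lam i + (σ i : ℕ) then
          (Module.finrank ℂ (G.M (lam + ex 1 - ex σ)) : ℤ) else 0) : ℤ) : ℂ) =
        ((Module.finrank ℂ (G.hws lam) : ℤ) : ℂ) := by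
      rw [Int.cast_natCast, ← h1, Int.cast_sum]
      apply Finset.sum_congr rfl
      intro σ _
      rw [Int.cast_mul]
      congr 1
      by_cases hle : ex σ ≤ lam + ex 1
      · rw [if_pos hle, if_pos (ex_le.1 hle), tr_id, Int.cast_natCast]
      · rw [if_neg hle, if_neg (fun h => hle (ex_le.2 h)), Int.cast_zero]
    exact (Int.cast_injective h2).symm
  · have hbot : ∀ μ : Fin n →₀ ℕ, ∑ i, μ i ≠ G.d → Module.finrank ℂ (G.M μ) = 0 := by
      intro μ hμ
      have h1 : G.M μ = ⊥ := by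
        rw [Submodule.eq_bot_iff]
        intro x hx
        by_contra hne
        exact hμ (G.deg μ x hx hne)
      rw [h1, finrank_bot]
    have hL : Module.finrank ℂ (G.hws lam) = 0 := by
      have h1 : G.hws lam = ⊥ := by
        rw [Submodule.eq_bot_iff]
        intro x hx
        by_contra hne
        exact hdeg (G.deg lam x hx.1 hne)
      rw [h1, finrank_bot]
    rw [hL, Nat.cast_zero]
    symm
    apply Finset.sum_eq_zero
    intro σ _
    split_ifs with hle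
    · rw [hbot, Nat.cast_zero, mul_zero]
      intro h
      apply hdeg
      have h2 := (Dm_sub_ex (ex_le.2 hle)).1
      have h3 : ((∑ i, (lam + ex 1 - ex σ : Fin n →₀ ℕ) i : ℕ) : ℤ) = ((∑ i, lam i : ℕ) : ℤ) := by
        push_cast
        exact h2
      have h4 : ∑ i, (lam + ex 1 - ex σ : Fin n →₀ ℕ) i = ∑ i, lam i := by exact_mod_cast h3
      rw [← h4, h]
    · rw [mul_zero]

end GLMod

end Vale.Agent.P181.H177
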